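import Mathlib
import Vale.Agent.P211.Cert.Conditions

/-!
P211: the constraint function on the whole line.  `qC` continues `qLev` beyond its range, monotone
and convex with bounded derivatives; `qS δ` is a smooth substitute for it on the band.  The
analysis uses `qLev` only through the facts at the head of this file.
-/

open MeasureTheory
open scoped ContDiff

namespace Vale.Agent.P211.Analytic

open Cert (qLev eLev eLev₁)

noncomputable section

lemma hasDerivAt_pos_pow {n : ℕ} (hn : 2 ≤ n) (a s : ℝ) :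
    HasDerivAt (fun y => max (y - a) 0 ^ n) (n * max (s - a) 0 ^ (n - 1)) s := by
  refine HasDerivWithinAt.hasDerivAt ?_ Filter.univ_mem
  rw [← Set.Iic_union_Ici (a := a)]
  refine HasDerivWithinAt.union ?_ ?_
  · rcases le_or_gt s a with h | h
    · rw [max_eq_right (by linarith : s - a ≤ 0), zero_pow (by omega), mul_zero]
      exact (hasDerivWithinAt_const s _ (0 : ℝ)).congr
        (fun y hy => by rw [max_eq_right (by linarith [Set.mem_Iic.1 hy]), zero_pow (by omega)])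
        (by rw [max_eq_right (by linarith : s - a ≤ 0), zero_pow (by omega)])
    · exact HasFDerivWithinAt.of_notMem_closure (by simpa [closure_Iic] using h)
  · rcases le_or_gt a s with h | h
    · rw [max_eq_left (by linarith : 0 ≤ s - a)]
      refine HasDerivWithinAt.congr (f := fun y => (y - a) ^ n) ?_
        (fun y hy => by rw [max_eq_left (by linarith [Set.mem_Ici.1 hy])])
        (by rw [max_eq_left (by linarith : 0 ≤ s - a)])
      simpa using (((hasDerivAt_id' s).sub_const a).fun_pow n).hasDerivWithinAt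
    · exact HasFDerivWithinAt.of_notMem_closure (by simpa [closure_Ici] using h)

/-! ### The facts about `qLev` -/

lemma hasDerivAt_qLev (s : ℝ) : HasDerivAt qLev (3 * eLev s) s := by
  refine HasDerivAt.congr_deriv ((hasDerivAt_pow 3 s).sub
    ((hasDerivAt_pos_pow (n := 3) (by norm_num) (11 / 10) s).const_mul Cert.gamQ)) ?_
  simp only [eLev, Nat.cast_ofNat, Nat.add_one_sub_one]
  ring

lemma hasDerivAt_eLev (s : ℝ) : HasDerivAt eLev (eLev₁ s) s := by
  refine HasDerivAt.congr_deriv ((hasDerivAt_pow 2 s).sub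
    ((hasDerivAt_pos_pow (n := 2) le_rfl (11 / 10) s).const_mul Cert.gamQ)) ?_
  simp only [eLev₁, Nat.cast_ofNat, Nat.add_one_sub_one, pow_one]
  ring

lemma continuous_eLev₁ : Continuous eLev₁ := by unfold Cert.eLev₁; fun_prop

lemma qLev_zero : qLev 0 = 0 ∧ eLev 0 = 0 ∧ eLev₁ 0 = 0 := by
  norm_num [Cert.qLev, Cert.eLev, Cert.eLev₁]

lemma eLev₁_bound {s : ℝ} (hs : s ∈ Set.Icc (0 : ℝ) (127 / 100)) : eLev₁ s ∈ Set.Icc (0 : ℝ) 3 := by
  obtain ⟨h0, h1⟩ := hs
  unfold Cert.eLev₁ Cert.gamQ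
  rcases le_total (s - 11 / 10) 0 with h | h
  · rw [max_eq_right h]; constructor <;> linarith
  · rw [max_eq_left h]; constructor <;> linarith

lemma qLev_le_cube (s : ℝ) : qLev s ≤ s ^ 3 := by
  have : 0 ≤ max (s - 11 / 10) 0 ^ 3 := pow_nonneg (le_max_right _ _) 3
  unfold Cert.qLev Cert.gamQ
  linarith

lemma qLev_values : qLev 1 = 1 ∧ qLev (63 / 50) ≤ 2 - 1 / 1000 ∧ 2 < qLev (127 / 100) ∧
    eLev 1 = 1 ∧ 1 / 200 ≤ eLev (1 / 10) := by
  norm_num [Cert.qLev, Cert.eLev, Cert.gamQ]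

/-! ### The continuation -/

/-- The second derivative of the continued constraint function. -/
def qC₂ (t : ℝ) : ℝ := 3 * eLev₁ (max 0 (min t (127 / 100))) * max 0 (min 1 (3 - t))

/-- Its derivative. -/
def qC₁ (s : ℝ) : ℝ := ∫ t in (0 : ℝ)..s, qC₂ t

/-- The continued constraint function. -/
def qC (s : ℝ) : ℝ := ∫ t in (0 : ℝ)..s, qC₁ t

/-- A third of the derivative. -/
def eC (s : ℝ) : ℝ := qC₁ s / 3

/-- A third of the second derivative. -/
def eC₁ (s : ℝ) : ℝ := qC₂ s / 3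

lemma continuous_qC₂ : Continuous qC₂ := by
  have := continuous_eLev₁
  unfold qC₂; fun_prop

lemma qC₂_bound (t : ℝ) : 0 ≤ qC₂ t ∧ qC₂ t ≤ 9 := by
  obtain ⟨h0, h3⟩ := eLev₁_bound (s := max 0 (min t (127 / 100)))
    ⟨le_max_left _ _, max_le (by norm_num) (min_le_right _ _)⟩
  have hr : 0 ≤ max 0 (min 1 (3 - t)) ∧ max 0 (min 1 (3 - t)) ≤ 1 :=
    ⟨le_max_left _ _, max_le zero_le_one (min_le_left _ _)⟩
  unfold qC₂
  exact ⟨mul_nonneg (by linarith) hr.1,
    (mul_le_mul (show 3 * eLev₁ (max 0 (min t (127 / 100))) ≤ 9 by linarith) hr.2 hr.1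
      (by norm_num)).trans (by norm_num)⟩

lemma hasDerivAt_qC₁ (s : ℝ) : HasDerivAt qC₁ (qC₂ s) s :=
  (continuous_qC₂.integral_hasStrictDerivAt 0 s).hasDerivAt

lemma continuous_qC₁ : Continuous qC₁ :=
  continuous_iff_continuousAt.2 fun s => (hasDerivAt_qC₁ s).continuousAt

lemma hasDerivAt_qC (s : ℝ) : HasDerivAt qC (qC₁ s) s :=
  (continuous_qC₁.integral_hasStrictDerivAt 0 s).hasDerivAt

lemma continuous_qC : Continuous qC :=
  continuous_iff_continuousAt.2 fun s => (hasDerivAt_qC s).continuousAt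

lemma monotone_qC₁ : Monotone qC₁ :=
  monotone_of_deriv_nonneg (fun s => (hasDerivAt_qC₁ s).differentiableAt)
    fun s => (hasDerivAt_qC₁ s).deriv ▸ (qC₂_bound s).1

lemma qC₂_of_nonpos {t : ℝ} (ht : t ≤ 0) : qC₂ t = 0 := by
  simp [qC₂, max_eq_left ((min_le_left t (127 / 100)).trans ht), qLev_zero.2.2]

lemma qC₁_of_nonpos {s : ℝ} (hs : s ≤ 0) : qC₁ s = 0 := by
  rw [qC₁, intervalIntegral.integral_congr (g := fun _ => (0 : ℝ)) fun t ht => ?_,
    intervalIntegral.integral_zero]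
  rw [Set.uIcc_of_ge hs] at ht
  exact qC₂_of_nonpos ht.2

lemma qC₁_nonneg (s : ℝ) : 0 ≤ qC₁ s := by
  rcases le_total s 0 with h | h
  · rw [qC₁_of_nonpos h]
  · exact (qC₁_of_nonpos le_rfl).ge.trans (monotone_qC₁ h)

lemma qC₁_le {s : ℝ} (hs : 0 ≤ s) : qC₁ s ≤ 9 * s := by
  have h := intervalIntegral.norm_integral_le_of_norm_le_const (C := 9) (a := (0 : ℝ)) (b := s)
    (f := qC₂) fun t _ => by
      rw [Real.norm_eq_abs, abs_of_nonneg (qC₂_bound t).1]; exact (qC₂_bound t).2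
  rw [sub_zero, abs_of_nonneg hs, Real.norm_eq_abs] at h
  exact (le_abs_self _).trans h

lemma qC₁_bound (s : ℝ) : 0 ≤ qC₁ s ∧ qC₁ s ≤ 27 := by
  refine ⟨qC₁_nonneg s, (monotone_qC₁ (le_max_left s 0)).trans ?_⟩
  rcases le_total (max s 0) 3 with h | h
  · linarith [qC₁_le (le_max_right s 0)]
  · have h0 : ∫ t in (3 : ℝ)..max s 0, qC₂ t = ∫ _ in (3 : ℝ)..max s 0, (0 : ℝ) :=
      intervalIntegral.integral_congr fun t ht => by
        rw [Set.uIcc_of_le h] at ht
        simp only [qC₂, max_eq_left ((min_le_right 1 (3 - t)).trans (by linarith [ht.1] : 3 - t ≤ (0 : ℝ))),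
          mul_zero]
    rw [intervalIntegral.integral_zero] at h0
    have := intervalIntegral.integral_add_adjacent_intervals (μ := volume)
      (continuous_qC₂.intervalIntegrable 0 3) (continuous_qC₂.intervalIntegrable 3 (max s 0))
    rw [h0, add_zero] at this
    have h3 := qC₁_le (s := 3) (by norm_num)
    unfold qC₁ at h3 ⊢
    linarith

lemma monotone_qC : Monotone qC :=
  monotone_of_deriv_nonneg (fun s => (hasDerivAt_qC s).differentiableAt)
    fun s => (hasDerivAt_qC s).deriv ▸ qC₁_nonneg s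

lemma qC_of_nonpos {s : ℝ} (hs : s ≤ 0) : qC s = 0 := by
  rw [qC, intervalIntegral.integral_congr (g := fun _ => (0 : ℝ)) fun t ht => ?_,
    intervalIntegral.integral_zero]
  rw [Set.uIcc_of_ge hs] at ht
  exact qC₁_of_nonpos ht.2

lemma qC_nonneg (s : ℝ) : 0 ≤ qC s := by
  rcases le_total s 0 with h | h
  · rw [qC_of_nonpos h]
  · exact (qC_of_nonpos le_rfl).ge.trans (monotone_qC h)

lemma qC₂_eq {s : ℝ} (hs : s ∈ Set.Icc (0 : ℝ) (127 / 100)) : qC₂ s = 3 * eLev₁ s := by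
  rw [qC₂, min_eq_left hs.2, max_eq_right hs.1, min_eq_left (by linarith [hs.2]),
    max_eq_right zero_le_one, mul_one]

lemma qC₁_eq {s : ℝ} (hs : s ∈ Set.Icc (0 : ℝ) (127 / 100)) : qC₁ s = 3 * eLev s := by
  rw [qC₁, intervalIntegral.integral_congr (g := fun t => 3 * eLev₁ t) fun t ht => ?_,
    intervalIntegral.integral_eq_sub_of_hasDerivAt
      (fun t _ => (hasDerivAt_eLev t).const_mul 3)
      ((continuous_eLev₁.const_mul 3).intervalIntegrable _ _), qLev_zero.2.1]
  · ring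
  rw [Set.uIcc_of_le hs.1] at ht
  exact qC₂_eq ⟨ht.1, ht.2.trans hs.2⟩

lemma qC_eq {s : ℝ} (hs : s ∈ Set.Icc (0 : ℝ) (127 / 100)) : qC s = qLev s := by
  have hc : Continuous fun t => 3 * eLev t := continuous_const.mul
    (continuous_iff_continuousAt.2 fun t => (hasDerivAt_eLev t).continuousAt)
  rw [qC, intervalIntegral.integral_congr (g := fun t => 3 * eLev t) fun t ht => ?_,
    intervalIntegral.integral_eq_sub_of_hasDerivAt (fun t _ => hasDerivAt_qLev t)
      (hc.intervalIntegrable _ _), qLev_zero.1, sub_zero]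
  rw [Set.uIcc_of_le hs.1] at ht
  exact qC₁_eq ⟨ht.1, ht.2.trans hs.2⟩

lemma eC_eq {s : ℝ} (hs : s ∈ Set.Icc (0 : ℝ) (127 / 100)) : eC s = eLev s ∧ eC₁ s = eLev₁ s := by
  rw [eC, eC₁, qC₁_eq hs, qC₂_eq hs]
  constructor <;> ring

lemma continuous_eC : Continuous eC := continuous_qC₁.div_const 3

lemma continuous_eC₁ : Continuous eC₁ := continuous_qC₂.div_const 3

lemma eC_bound (s : ℝ) : 0 ≤ eC s ∧ eC s ≤ 9 ∧ (s ≤ 9 / 4 → eC s ≤ 7) ∧ 0 ≤ eC₁ s ∧ eC₁ s ≤ 3 := by
  have h1 := qC₁_bound s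
  have h2 := qC₂_bound s
  unfold eC eC₁
  refine ⟨by linarith, by linarith, fun h => ?_, by linarith, by linarith⟩
  linarith [(monotone_qC₁ h).trans (qC₁_le (by norm_num))]

/-- Inside the level the variable stays in the range of `qLev`, and below `127/100`. -/
lemma le_of_qC_le {s : ℝ} (h : qC s ≤ 2) : s ≤ 127 / 100 := by
  by_contra hc
  have h1 := monotone_qC (not_le.1 hc).le
  rw [qC_eq (by constructor <;> norm_num)] at h1
  linarith [qLev_values.2.2.1]

/-- A value at most one comes from a variable at most one. -/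
lemma le_one_of_qC_le {s : ℝ} (h : qC s ≤ 1) : s ≤ 1 := by
  by_contra hc
  rw [not_le] at hc
  have h1 : (s - 1) * qC₁ 1 ≤ qC s - qC 1 := by
    have hm := intervalIntegral.integral_mono_on (μ := volume) hc.le
      intervalIntegrable_const (continuous_qC₁.intervalIntegrable 1 s)
      fun t ht => monotone_qC₁ ht.1
    rw [intervalIntegral.integral_const, smul_eq_mul,
      intervalIntegral.integral_eq_sub_of_hasDerivAt (fun t _ => hasDerivAt_qC t)
        (continuous_qC₁.intervalIntegrable 1 s)] at hm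
    exact hm
  have h2 : 0 < qC₁ 1 := lt_of_lt_of_le
    (by rw [qC₁_eq (by constructor <;> norm_num)]; linarith [qLev_values.2.2.2.2])
    (monotone_qC₁ (by norm_num : (1 / 10 : ℝ) ≤ 1))
  have h3 : qC 1 = 1 := by rw [qC_eq (by constructor <;> norm_num)]; exact qLev_values.1
  nlinarith [mul_pos (sub_pos.2 hc) h2]

/-- Far beyond the level the value is at least four. -/
lemma four_le_qC_two : 4 ≤ qC 2 := by
  have hm := intervalIntegral.integral_mono_on (μ := volume) (show (1 : ℝ) ≤ 2 by norm_num)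
    intervalIntegrable_const (continuous_qC₁.intervalIntegrable 1 2)
    fun t ht => monotone_qC₁ ht.1
  rw [intervalIntegral.integral_const, smul_eq_mul,
    intervalIntegral.integral_eq_sub_of_hasDerivAt (fun t _ => hasDerivAt_qC t)
      (continuous_qC₁.intervalIntegrable 1 2), qC₁_eq (by constructor <;> norm_num),
    qC_eq (s := 1) (by constructor <;> norm_num), qLev_values.1, qLev_values.2.2.2.1] at hm
  linarith

/-- A variable whose value exceeds `1/1000` has derivative bounded below. -/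
lemma eC_ge_of_qC_gt {s : ℝ} (h : 1 / 1000 < qC s) : 1 / 200 ≤ eC s ∧ 0 ≤ s := by
  have hs : 1 / 10 ≤ s := by
    by_contra hc
    have h1 := monotone_qC (not_le.1 hc).le
    rw [qC_eq (s := 1 / 10) (by constructor <;> norm_num)] at h1
    linarith [qLev_le_cube (1 / 10), show (1 / 10 : ℝ) ^ 3 = 1 / 1000 by norm_num]
  refine ⟨le_trans ?_ (div_le_div_of_nonneg_right (monotone_qC₁ hs) (by norm_num)), by linarith⟩
  rw [qC₁_eq (by constructor <;> norm_num), mul_div_cancel_left₀ _ (by norm_num : (3 : ℝ) ≠ 0)]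
  exact qLev_values.2.2.2.2

/-- A number whose cube is at most two has value at most its cube and at most `2 - 1/1000`. -/
lemma qC_le_of_cube_le {a : ℝ} (ha : 0 ≤ a) (h : a ^ 3 ≤ 2) : qC a ≤ a ^ 3 ∧ qC a ≤ 2 - 1 / 1000 := by
  have h1 : a ≤ 63 / 50 := le_of_pow_le_pow_left₀ three_ne_zero (by norm_num)
    (h.trans (by norm_num))
  refine ⟨(qC_eq ⟨ha, by linarith⟩).trans_le (qLev_le_cube a), (monotone_qC h1).trans ?_⟩
  rw [qC_eq (by constructor <;> norm_num)]
  exact qLev_values.2.1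

/-! ### The softening -/

/-- The softening of the reaction of the first variable inside the level. -/
def soft (s t : ℝ) : ℝ := Cert.cSoft * eC s * max (2 - qC s - qC t) 0 ^ 2

lemma cSoft_mem : 0 ≤ Cert.cSoft ∧ Cert.cSoft ≤ 1 / 2 := by norm_num [Cert.cSoft]

lemma soft_bound (s t : ℝ) : 0 ≤ soft s t ∧ soft s t ≤ 18 := by
  obtain ⟨c0, c1⟩ := cSoft_mem
  obtain ⟨e0, e9, -⟩ := eC_bound s
  have hm : max (2 - qC s - qC t) 0 ≤ 2 :=
    max_le (by linarith [qC_nonneg s, qC_nonneg t]) zero_le_two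
  have hm0 : 0 ≤ max (2 - qC s - qC t) 0 := le_max_right _ _
  refine ⟨by unfold soft; positivity, ?_⟩
  exact (mul_le_mul (mul_le_mul c1 e9 e0 (by norm_num)) (pow_le_pow_left₀ hm0 hm 2) (sq_nonneg _)
    (by norm_num)).trans_eq (by norm_num)

lemma soft_of_level {s t : ℝ} (h : 2 ≤ qC s + qC t) : soft s t = 0 := by
  rw [soft, max_eq_right (by linarith : 2 - qC s - qC t ≤ 0)]
  ring

lemma continuous_soft : Continuous fun z : ℝ × ℝ => soft z.1 z.2 := by
  have := continuous_qC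
  have := continuous_qC₁
  unfold soft eC
  fun_prop

/-! ### The smooth substitute -/

lemma exists_qS {δ : ℝ} (hδ : 0 < δ) :
    ∃ q : ℝ → ℝ, ContDiff ℝ ∞ q ∧ ∀ s ∈ Set.Icc (-1 : ℝ) 3, |q s - qC s| ≤ δ ∧
      deriv q s ∈ Set.Icc (qC₁ s) (qC₁ s + δ) ∧
      deriv (deriv q) s ∈ Set.Icc (qC₂ s) (qC₂ s + δ) := by
  obtain ⟨p, hp⟩ := exists_polynomial_near_of_continuousOn (-1) 3
    (fun t => qC₂ t + δ / 24) (continuous_qC₂.add continuous_const).continuousOn (δ / 24)
    (by positivity)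
  let p₂ : ℝ → ℝ := fun t => p.eval t
  have hc2 : ContDiff ℝ ∞ p₂ := p.contDiff_aeval ∞
  have h2 : ∀ t ∈ Set.Icc (-1 : ℝ) 3, qC₂ t ≤ p₂ t ∧ p₂ t ≤ qC₂ t + δ / 12 := fun t ht => by
    have := abs_lt.1 (hp t ht)
    simp only [p₂]
    constructor <;> linarith
  let p₁ : ℝ → ℝ := fun s => ∫ t in (-1 : ℝ)..s, p₂ t
  have hd1 : ∀ s, HasDerivAt p₁ (p₂ s) s := fun s =>
    (hc2.continuous.integral_hasStrictDerivAt (-1) s).hasDerivAt
  have e1 : deriv p₁ = p₂ := funext fun s => (hd1 s).deriv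
  have hc1 : ContDiff ℝ ∞ p₁ :=
    contDiff_infty_iff_deriv.2 ⟨fun s => (hd1 s).differentiableAt, e1 ▸ hc2⟩
  let p₀ : ℝ → ℝ := fun s => ∫ t in (0 : ℝ)..s, p₁ t
  have hd0 : ∀ s, HasDerivAt p₀ (p₁ s) s := fun s =>
    (hc1.continuous.integral_hasStrictDerivAt 0 s).hasDerivAt
  have e0 : deriv p₀ = p₁ := funext fun s => (hd0 s).deriv
  have h1 : ∀ s ∈ Set.Icc (-1 : ℝ) 3, qC₁ s ≤ p₁ s ∧ p₁ s ≤ qC₁ s + δ / 3 := fun s hs => by
    have ec : qC₁ s = ∫ t in (-1 : ℝ)..s, qC₂ t := by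
      rw [intervalIntegral.integral_eq_sub_of_hasDerivAt (fun t _ => hasDerivAt_qC₁ t)
        (continuous_qC₂.intervalIntegrable _ _), qC₁_of_nonpos (by norm_num : (-1 : ℝ) ≤ 0),
        sub_zero]
    rw [ec]
    refine ⟨intervalIntegral.integral_mono_on hs.1 (continuous_qC₂.intervalIntegrable _ _)
      (hc2.continuous.intervalIntegrable _ _) fun t ht => (h2 t ⟨ht.1, ht.2.trans hs.2⟩).1, ?_⟩
    refine (intervalIntegral.integral_mono_on hs.1 (hc2.continuous.intervalIntegrable _ _)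
      (Continuous.intervalIntegrable (by have := continuous_qC₂; fun_prop :
        Continuous fun t => qC₂ t + δ / 12) _ _)
      fun t ht => (h2 t ⟨ht.1, ht.2.trans hs.2⟩).2).trans ?_
    rw [intervalIntegral.integral_add (continuous_qC₂.intervalIntegrable _ _)
      intervalIntegrable_const, intervalIntegral.integral_const, smul_eq_mul]
    nlinarith [hs.2]
  refine ⟨p₀, contDiff_infty_iff_deriv.2 ⟨fun s => (hd0 s).differentiableAt, e0 ▸ hc1⟩,
    fun s hs => ⟨?_, ?_, ?_⟩⟩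
  · show |(∫ t in (0 : ℝ)..s, p₁ t) - ∫ t in (0 : ℝ)..s, qC₁ t| ≤ δ
    rw [← intervalIntegral.integral_sub (hc1.continuous.intervalIntegrable _ _)
      (continuous_qC₁.intervalIntegrable _ _)]
    refine (intervalIntegral.norm_integral_le_of_norm_le_const (f := fun t => p₁ t - qC₁ t)
      (C := δ / 3) fun t ht => ?_).trans ?_
    · have ht' : t ∈ Set.Icc (-1 : ℝ) 3 := by
        rcases Set.mem_uIoc.1 ht with ⟨a, b⟩ | ⟨a, b⟩ <;>
          exact ⟨by linarith [hs.1], by linarith [hs.2]⟩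
      rw [Real.norm_eq_abs, abs_le]
      constructor <;> linarith [h1 t ht']
    · have : |s - 0| ≤ 3 := abs_le.2 ⟨by linarith [hs.1], by linarith [hs.2]⟩
      nlinarith
  · rw [e0]
    exact ⟨(h1 s hs).1, by linarith [h1 s hs]⟩
  · rw [e0, e1]
    exact ⟨(h2 s hs).1, by linarith [h2 s hs]⟩

open Classical in
/-- The smooth substitute of accuracy `δ`. -/
def qS (δ : ℝ) : ℝ → ℝ := if h : 0 < δ then Classical.choose (exists_qS h) else fun _ => 0

/-- A third of its derivative. -/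
def eS (δ s : ℝ) : ℝ := deriv (qS δ) s / 3

/-- A third of its second derivative. -/
def eS₁ (δ s : ℝ) : ℝ := deriv (deriv (qS δ)) s / 3

lemma contDiff_qS (δ : ℝ) : ContDiff ℝ ∞ (qS δ) := by
  unfold qS
  split
  · next h => exact (Classical.choose_spec (exists_qS h)).1
  · exact contDiff_const

lemma contDiff_eS (δ : ℝ) : ContDiff ℝ ∞ (eS δ) :=
  (contDiff_infty_iff_deriv.1 (contDiff_qS δ)).2.div_const 3

lemma deriv_eS (δ s : ℝ) : deriv (eS δ) s = eS₁ δ s := by
  unfold eS eS₁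
  exact deriv_div_const _

lemma qS_spec {δ s : ℝ} (hδ : 0 < δ) (hs : s ∈ Set.Icc (-1 : ℝ) 3) :
    |qS δ s - qC s| ≤ δ ∧ (eC s ≤ eS δ s ∧ eS δ s ≤ eC s + δ) ∧
      eC₁ s ≤ eS₁ δ s ∧ eS₁ δ s ≤ eC₁ s + δ := by
  simp only [eS, eS₁, eC, eC₁, qS, dif_pos hδ]
  obtain ⟨h0, ⟨h1, h1'⟩, h2, h2'⟩ := (Classical.choose_spec (exists_qS hδ)).2 s hs
  exact ⟨h0, ⟨by linarith, by linarith⟩, by linarith, by linarith⟩

end

end Vale.Agent.P211.Analytic
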