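import Mathlib

/-!
P211, module D (note 1326): smooth monotone clipping of a variable to a slightly enlarged interval.
-/

open intervalIntegral
open scoped ContDiff

namespace Vale.Agent.P211.Analytic

/-- A smooth, monotone, one-Lipschitz retraction to almost `[a, b]`. -/
theorem exists_clip {a b ε : ℝ} (hab : a ≤ b) (hε : 0 < ε) :
    ∃ θ : ℝ → ℝ, ContDiff ℝ ∞ θ ∧ (∀ s, 0 ≤ deriv θ s ∧ deriv θ s ≤ 1) ∧
      (∀ s ∈ Set.Icc a b, θ s = s) ∧ (∀ s, a - ε ≤ θ s ∧ θ s ≤ b + ε) ∧
      (∀ s t, |θ s - θ t| ≤ |s - t|) ∧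
      (∀ s, (s ≤ a → s ≤ θ s ∧ θ s ≤ a) ∧ (b ≤ s → b ≤ θ s ∧ θ s ≤ s)) := by
  let ρ : ℝ → ℝ := fun t =>
    Real.smoothTransition ((t - (a - ε)) / ε) * Real.smoothTransition ((b + ε - t) / ε)
  have hρc : ContDiff ℝ ∞ ρ := by
    refine (Real.smoothTransition.contDiff.comp ?_).mul (Real.smoothTransition.contDiff.comp ?_)
    · fun_prop
    · fun_prop
  have hρ0 : ∀ t, 0 ≤ ρ t := fun t =>
    mul_nonneg (Real.smoothTransition.nonneg _) (Real.smoothTransition.nonneg _)
  have hρ1 : ∀ t, ρ t ≤ 1 := fun t =>
    mul_le_one₀ (Real.smoothTransition.le_one _) (Real.smoothTransition.nonneg _)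
      (Real.smoothTransition.le_one _)
  have hρin : ∀ t ∈ Set.Icc a b, ρ t = 1 := fun t ht => by
    have h1 : 1 ≤ (t - (a - ε)) / ε := (one_le_div hε).2 (by linarith [ht.1])
    have h2 : 1 ≤ (b + ε - t) / ε := (one_le_div hε).2 (by linarith [ht.2])
    simp [ρ, Real.smoothTransition.one_of_one_le h1, Real.smoothTransition.one_of_one_le h2]
  have hρlo : ∀ t ≤ a - ε, ρ t = 0 := fun t ht => by
    simp [ρ, Real.smoothTransition.zero_of_nonpos (div_nonpos_of_nonpos_of_nonneg
      (by linarith : t - (a - ε) ≤ 0) hε.le)]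
  have hρhi : ∀ t, b + ε ≤ t → ρ t = 0 := fun t ht => by
    simp [ρ, Real.smoothTransition.zero_of_nonpos (div_nonpos_of_nonpos_of_nonneg
      (by linarith : b + ε - t ≤ 0) hε.le)]
  let θ : ℝ → ℝ := fun s => a + ∫ t in a..s, ρ t
  have hd : ∀ s, HasDerivAt θ (ρ s) s := fun s =>
    (hρc.continuous.integral_hasStrictDerivAt a s).hasDerivAt.const_add a
  have hder : deriv θ = ρ := funext fun s => (hd s).deriv
  have hdiff : Differentiable ℝ θ := fun s => (hd s).differentiableAt
  have hsm : ContDiff ℝ ∞ θ := contDiff_infty_iff_deriv.2 ⟨hdiff, hder ▸ hρc⟩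
  have ha : θ a = a := by simp [θ]
  have hmono : Monotone θ := monotone_of_deriv_nonneg hdiff fun s => hder ▸ hρ0 s
  have hmono2 : Monotone fun s => s - θ s := by
    refine monotone_of_deriv_nonneg (differentiable_id.sub hdiff) fun s => ?_
    rw [HasDerivAt.deriv (f := fun s => s - θ s) ((hasDerivAt_id' s).sub (hd s))]
    linarith [hρ1 s]
  have hid : ∀ s ∈ Set.Icc a b, θ s = s := fun s hs => by
    have h : ∫ t in a..s, ρ t = ∫ _ in a..s, (1 : ℝ) :=
      integral_congr fun t ht => hρin t (by
        rw [Set.uIcc_of_le hs.1] at ht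
        exact ⟨ht.1, ht.2.trans hs.2⟩)
    rw [intervalIntegral.integral_const, smul_eq_mul, mul_one] at h
    simp only [θ, h]
    ring
  have hb : θ b = b := hid b ⟨hab, le_rfl⟩
  refine ⟨θ, hsm, fun s => hder ▸ ⟨hρ0 s, hρ1 s⟩, hid, fun s => ⟨?_, ?_⟩, fun s t => ?_,
    fun s => ⟨fun hs => ⟨?_, ?_⟩, fun hs => ⟨?_, ?_⟩⟩⟩
  · rcases le_total (a - ε) s with h | h
    · refine le_trans ?_ (hmono h)
      have := hmono2 (show a - ε ≤ a by linarith)
      dsimp only at this
      linarith
    · have e : θ s = θ (a - ε) := by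
        have h0 : ∫ t in s..(a - ε), ρ t = ∫ _ in s..(a - ε), (0 : ℝ) :=
          integral_congr fun t ht => hρlo t (by rw [Set.uIcc_of_le h] at ht; exact ht.2)
        rw [intervalIntegral.integral_zero] at h0
        have := integral_add_adjacent_intervals (hρc.continuous.intervalIntegrable a s)
          (hρc.continuous.intervalIntegrable (μ := MeasureTheory.volume) s (a - ε))
        simp only [θ]
        linarith
      have := hmono2 (show a - ε ≤ a by linarith)
      dsimp only at this
      linarith
  · rcases le_total s (b + ε) with h | h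
    · refine (hmono h).trans ?_
      have := hmono2 (show b ≤ b + ε by linarith)
      dsimp only at this
      linarith
    · have e : θ s = θ (b + ε) := by
        have h0 : ∫ t in (b + ε)..s, ρ t = ∫ _ in (b + ε)..s, (0 : ℝ) :=
          integral_congr fun t ht => hρhi t (by rw [Set.uIcc_of_le h] at ht; exact ht.1)
        rw [intervalIntegral.integral_zero] at h0
        have := integral_add_adjacent_intervals (hρc.continuous.intervalIntegrable a (b + ε))
          (hρc.continuous.intervalIntegrable (μ := MeasureTheory.volume) (b + ε) s)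
        simp only [θ]
        linarith
      have := hmono2 (show b ≤ b + ε by linarith)
      dsimp only at this
      linarith
  · rcases le_total s t with h | h
    · rw [abs_of_nonpos (by linarith [hmono h]), abs_of_nonpos (by linarith)]
      have := hmono2 h
      dsimp only at this
      linarith
    · rw [abs_of_nonneg (by linarith [hmono h]), abs_of_nonneg (by linarith)]
      have := hmono2 h
      dsimp only at this
      linarith
  · have := hmono2 hs
    dsimp only at this
    linarith
  · exact (hmono hs).trans ha.le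
  · exact hb.ge.trans (hmono hs)
  · have := hmono2 hs
    dsimp only at this
    linarith

end Vale.Agent.P211.Analytic
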