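import Mathlib

/-!
P211, module A of the analytic plan (note 1326): what the scalar argument may use about a closed
four-manifold with Ricci tensor three times the metric.  Gradients and Hessians are components in
an orthonormal frame chosen point by point (not necessarily continuously); only their contractions
are continuous.  An interface: it is to be instantiated from charts, never assumed in a hand-in.
-/

open MeasureTheory Matrix
open scoped ContDiff

namespace Vale.Agent.P211.Analytic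

noncomputable section

/-- The partial derivative in the `i`-th of finitely many variables. -/
def part {n : ℕ} (Φ : (Fin n → ℝ) → ℝ) (i : Fin n) (y : Fin n → ℝ) : ℝ :=
  fderiv ℝ Φ y (Pi.single i 1)

/-- The contraction of two matrices. -/
def mdot (A B : Matrix (Fin 4) (Fin 4) ℝ) : ℝ := ∑ i, ∑ j, A i j * B i j

/-- The scalar calculus of a closed four-manifold with Ricci tensor three times the metric. -/
structure ScalarGeom (X : Type*) [TopologicalSpace X] [MeasurableSpace X] where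
  /-- The volume. -/
  vol : Measure X
  vol_finite : IsFiniteMeasure vol
  vol_openPos : vol.IsOpenPosMeasure
  /-- Smoothness. -/
  Smooth : (X → ℝ) → Prop
  continuous_of_smooth : ∀ {u}, Smooth u → Continuous u
  /-- The components of the differential. -/
  grad : (X → ℝ) → X → Fin 4 → ℝ
  /-- The components of the Hessian. -/
  hess : (X → ℝ) → X → Matrix (Fin 4) (Fin 4) ℝ
  hess_symm : ∀ {u}, Smooth u → ∀ x, (hess u x).transpose = hess u x
  smooth_comp : ∀ {n} (u : Fin n → X → ℝ) (Φ : (Fin n → ℝ) → ℝ),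
    (∀ i, Smooth (u i)) → ContDiff ℝ ∞ Φ → Smooth fun x => Φ fun i => u i x
  grad_comp : ∀ {n} (u : Fin n → X → ℝ) (Φ : (Fin n → ℝ) → ℝ),
    (∀ i, Smooth (u i)) → ContDiff ℝ ∞ Φ → ∀ x,
      grad (fun y => Φ fun i => u i y) x = ∑ i, part Φ i (fun j => u j x) • grad (u i) x
  hess_comp : ∀ {n} (u : Fin n → X → ℝ) (Φ : (Fin n → ℝ) → ℝ),
    (∀ i, Smooth (u i)) → ContDiff ℝ ∞ Φ → ∀ x,
      hess (fun y => Φ fun i => u i y) x = (∑ i, part Φ i (fun j => u j x) • hess (u i) x) +
        ∑ i, ∑ j, part (part Φ i) j (fun k => u k x) • vecMulVec (grad (u i) x) (grad (u j) x)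
  smooth_ip : ∀ {u v}, Smooth u → Smooth v → Smooth fun x => grad u x ⬝ᵥ grad v x
  smooth_trace : ∀ {u}, Smooth u → Smooth fun x => (hess u x).trace
  continuous_mdot : ∀ {u v}, Smooth u → Smooth v →
    Continuous fun x => mdot (hess u x) (hess v x)
  grad_ip : ∀ {u v}, Smooth u → Smooth v → ∀ x,
    grad (fun y => grad u y ⬝ᵥ grad v y) x = hess u x *ᵥ grad v x + hess v x *ᵥ grad u x
  green : ∀ {u v}, Smooth u → Smooth v →
    ∫ x, v x * (hess u x).trace ∂vol = -∫ x, grad v x ⬝ᵥ grad u x ∂vol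
  bochner : ∀ {φ u v}, Smooth φ → Smooth u → Smooth v →
    ∫ x, φ x * (mdot (hess u x) (hess v x) - (hess u x).trace * (hess v x).trace +
        3 * (grad u x ⬝ᵥ grad v x)) ∂vol =
      -∫ x, grad φ x ⬝ᵥ (hess u x *ᵥ grad v x - (hess u x).trace • grad v x) ∂vol
  /-- Poincaré's inequality in mean. -/
  poincareL1 : ∃ C : ℝ, ∀ {u}, Smooth u →
    ∫ x, |u x - (∫ y, u y ∂vol) / vol.real Set.univ| ∂vol ≤
      C * ∫ x, √(grad u x ⬝ᵥ grad u x) ∂vol
  /-- A sequence in a band, Cauchy in energy, with weak residuals tending to zero, is close to a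
  smooth function in the band with small residual in mean square. -/
  weakToStrong : ∀ (u h : ℕ → X → ℝ) (lo hi : X → ℝ) (e : ℕ → ℝ),
    (∀ m, Smooth (u m)) → (∀ m, Continuous (h m)) → Continuous lo → Continuous hi →
    (∀ m x, lo x ≤ u m x ∧ u m x ≤ hi x) →
    (∀ ε > 0, ∃ N, ∀ m ≥ N, ∀ n ≥ N,
      (∫ x, (u m x - u n x) ^ 2 ∂vol) +
        (∫ x, (grad (u m) x - grad (u n) x) ⬝ᵥ (grad (u m) x - grad (u n) x) ∂vol) +
        (∫ x, (h m x - h n x) ^ 2 ∂vol) < ε) →
    Filter.Tendsto e Filter.atTop (nhds 0) →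
    (∀ m φ, Smooth φ → |∫ x, (grad (u m) x ⬝ᵥ grad φ x + h m x * φ x) ∂vol| ≤
      e m * √(∫ x, (φ x ^ 2 + grad φ x ⬝ᵥ grad φ x) ∂vol)) →
    ∀ ε > 0, ∃ N, ∀ m ≥ N, ∃ v, Smooth v ∧
      (∫ x, (v x - u m x) ^ 2 ∂vol) +
        (∫ x, (grad v x - grad (u m) x) ⬝ᵥ (grad v x - grad (u m) x) ∂vol) < ε ∧
      (∫ x, ((hess v x).trace - h m x) ^ 2 ∂vol) < ε ∧
      ∀ x, lo x - ε ≤ v x ∧ v x ≤ hi x + ε

attribute [instance] ScalarGeom.vol_finite ScalarGeom.vol_openPos

namespace ScalarGeom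

variable {X : Type*} [TopologicalSpace X] [MeasurableSpace X] (S : ScalarGeom X)

/-- The Laplacian. -/
def lap (u : X → ℝ) (x : X) : ℝ := (S.hess u x).trace

/-- The inner product of two differentials. -/
def ip (u v : X → ℝ) (x : X) : ℝ := S.grad u x ⬝ᵥ S.grad v x

lemma ip_comm (u v : X → ℝ) (x : X) : S.ip u v x = S.ip v u x := dotProduct_comm _ _

lemma ip_self_nonneg (u : X → ℝ) (x : X) : 0 ≤ S.ip u u x := by
  simp only [ip, dotProduct]
  exact Finset.sum_nonneg fun _ _ => mul_self_nonneg _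

lemma ip_sq_le (u v : X → ℝ) (x : X) : S.ip u v x ^ 2 ≤ S.ip u u x * S.ip v v x := by
  simpa [ip, dotProduct, pow_two] using
    Finset.sum_mul_sq_le_sq_mul_sq Finset.univ (S.grad u x) (S.grad v x)

lemma mdot_self_nonneg (u : X → ℝ) (x : X) : 0 ≤ mdot (S.hess u x) (S.hess u x) :=
  Finset.sum_nonneg fun _ _ => Finset.sum_nonneg fun _ _ => mul_self_nonneg _

lemma lap_sq_le (u : X → ℝ) (x : X) :
    S.lap u x ^ 2 ≤ 4 * mdot (S.hess u x) (S.hess u x) := by
  simp only [lap, mdot, Matrix.trace, Matrix.diag, Fin.sum_univ_four]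
  generalize S.hess u x = H
  nlinarith [sq_nonneg (H 0 0 - H 1 1), sq_nonneg (H 0 0 - H 2 2), sq_nonneg (H 0 0 - H 3 3),
    sq_nonneg (H 1 1 - H 2 2), sq_nonneg (H 1 1 - H 3 3), sq_nonneg (H 2 2 - H 3 3),
    mul_self_nonneg (H 0 1), mul_self_nonneg (H 0 2), mul_self_nonneg (H 0 3),
    mul_self_nonneg (H 1 0), mul_self_nonneg (H 1 2), mul_self_nonneg (H 1 3),
    mul_self_nonneg (H 2 0), mul_self_nonneg (H 2 1), mul_self_nonneg (H 2 3),
    mul_self_nonneg (H 3 0), mul_self_nonneg (H 3 1), mul_self_nonneg (H 3 2)]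

section Comp

lemma smooth_const (c : ℝ) : S.Smooth fun _ => c :=
  S.smooth_comp (n := 0) Fin.elim0 (fun _ => c) (fun i => i.elim0) contDiff_const

lemma grad_const (c : ℝ) (x : X) : S.grad (fun _ => c) x = 0 := by
  simpa using S.grad_comp (n := 0) Fin.elim0 (fun _ => c) (fun i => i.elim0) contDiff_const x

lemma hess_const (c : ℝ) (x : X) : S.hess (fun _ => c) x = 0 := by
  simpa using S.hess_comp (n := 0) Fin.elim0 (fun _ => c) (fun i => i.elim0) contDiff_const x

variable {u v : X → ℝ}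

lemma contDiff_one_var {φ : ℝ → ℝ} (hφ : ContDiff ℝ ∞ φ) :
    ContDiff ℝ ∞ fun y : Fin 1 → ℝ => φ (y 0) := hφ.comp (contDiff_apply ℝ ℝ 0)

lemma part_one_var {φ : ℝ → ℝ} (hφ : Differentiable ℝ φ) :
    part (fun y : Fin 1 → ℝ => φ (y 0)) 0 = fun y => deriv φ (y 0) := by
  funext y
  have h := (hφ (y 0)).hasDerivAt.hasFDerivAt.comp y
    (hasFDerivAt_apply (𝕜 := ℝ) (0 : Fin 1) y)
  rw [part, HasFDerivAt.fderiv (f := fun y : Fin 1 → ℝ => φ (y 0)) h]
  simp

lemma smooth_comp₁ {φ : ℝ → ℝ} (hu : S.Smooth u) (hφ : ContDiff ℝ ∞ φ) :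
    S.Smooth fun x => φ (u x) :=
  S.smooth_comp (fun _ : Fin 1 => u) (fun y => φ (y 0)) (fun _ => hu) (contDiff_one_var hφ)

lemma grad_comp₁ {φ : ℝ → ℝ} (hu : S.Smooth u) (hφ : ContDiff ℝ ∞ φ) (x : X) :
    S.grad (fun y => φ (u y)) x = deriv φ (u x) • S.grad u x := by
  have h := S.grad_comp (fun _ : Fin 1 => u) (fun y => φ (y 0)) (fun _ => hu)
    (contDiff_one_var hφ) x
  simpa [part_one_var (hφ.differentiable (by simp))] using h

lemma hess_comp₁ {φ : ℝ → ℝ} (hu : S.Smooth u) (hφ : ContDiff ℝ ∞ φ) (x : X) :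
    S.hess (fun y => φ (u y)) x = deriv φ (u x) • S.hess u x +
      deriv (deriv φ) (u x) • vecMulVec (S.grad u x) (S.grad u x) := by
  have h := S.hess_comp (fun _ : Fin 1 => u) (fun y => φ (y 0)) (fun _ => hu)
    (contDiff_one_var hφ) x
  have hd : Differentiable ℝ (deriv φ) :=
    (contDiff_infty_iff_deriv.1 hφ).2.differentiable (by simp)
  simpa [part_one_var (hφ.differentiable (by simp)), part_one_var hd] using h

lemma lap_comp₁ {φ : ℝ → ℝ} (hu : S.Smooth u) (hφ : ContDiff ℝ ∞ φ) (x : X) :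
    S.lap (fun y => φ (u y)) x =
      deriv φ (u x) * S.lap u x + deriv (deriv φ) (u x) * S.ip u u x := by
  simp [lap, ip, S.hess_comp₁ hu hφ, Matrix.trace_add, Matrix.trace_smul, trace_vecMulVec]

private def linΦ (a b : ℝ) : (Fin 2 → ℝ) → ℝ := fun y => a * y 0 + b * y 1

private lemma contDiff_linΦ (a b : ℝ) : ContDiff ℝ ∞ (linΦ a b) := by
  unfold linΦ; fun_prop

private lemma part_linΦ (a b : ℝ) (i : Fin 2) : part (linΦ a b) i = fun _ => ![a, b] i := by
  funext y
  have h := ((hasFDerivAt_apply (𝕜 := ℝ) (0 : Fin 2) y).const_mul a).add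
    ((hasFDerivAt_apply (𝕜 := ℝ) (1 : Fin 2) y).const_mul b)
  rw [part, HasFDerivAt.fderiv (f := linΦ a b) h]
  fin_cases i <;> simp

lemma smooth_lin (hu : S.Smooth u) (hv : S.Smooth v) (a b : ℝ) :
    S.Smooth fun x => a * u x + b * v x :=
  S.smooth_comp ![u, v] (linΦ a b) (Fin.forall_fin_two.2 ⟨hu, hv⟩) (contDiff_linΦ a b)

lemma grad_lin (hu : S.Smooth u) (hv : S.Smooth v) (a b : ℝ) (x : X) :
    S.grad (fun y => a * u y + b * v y) x = a • S.grad u x + b • S.grad v x := by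
  have h := S.grad_comp ![u, v] (linΦ a b) (Fin.forall_fin_two.2 ⟨hu, hv⟩) (contDiff_linΦ a b) x
  simp only [part_linΦ, Fin.sum_univ_two] at h
  exact h

lemma hess_lin (hu : S.Smooth u) (hv : S.Smooth v) (a b : ℝ) (x : X) :
    S.hess (fun y => a * u y + b * v y) x = a • S.hess u x + b • S.hess v x := by
  have h := S.hess_comp ![u, v] (linΦ a b) (Fin.forall_fin_two.2 ⟨hu, hv⟩) (contDiff_linΦ a b) x
  have h0 : ∀ i j c, part (part (linΦ a b) i) j c = 0 := fun i j c => by
    rw [part_linΦ]; simp [part]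
  simp only [h0, zero_smul, Finset.sum_const_zero, add_zero] at h
  simp only [part_linΦ, Fin.sum_univ_two] at h
  exact h

lemma smooth_sub (hu : S.Smooth u) (hv : S.Smooth v) : S.Smooth fun x => u x - v x := by
  simpa [sub_eq_add_neg] using S.smooth_lin hu hv 1 (-1)

lemma grad_sub (hu : S.Smooth u) (hv : S.Smooth v) (x : X) :
    S.grad (fun y => u y - v y) x = S.grad u x - S.grad v x := by
  simpa [sub_eq_add_neg] using S.grad_lin hu hv 1 (-1) x

lemma lap_sub (hu : S.Smooth u) (hv : S.Smooth v) (x : X) :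
    S.lap (fun y => u y - v y) x = S.lap u x - S.lap v x := by
  have h := congrArg Matrix.trace (S.hess_lin hu hv 1 (-1) x)
  simpa [lap, sub_eq_add_neg, Matrix.trace_add, Matrix.trace_smul] using h

private def mulΦ : (Fin 2 → ℝ) → ℝ := fun y => y 0 * y 1

private lemma contDiff_mulΦ : ContDiff ℝ ∞ mulΦ := by
  unfold mulΦ; fun_prop

lemma smooth_mul (hu : S.Smooth u) (hv : S.Smooth v) : S.Smooth fun x => u x * v x :=
  S.smooth_comp ![u, v] mulΦ (Fin.forall_fin_two.2 ⟨hu, hv⟩) contDiff_mulΦ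

lemma grad_mul (hu : S.Smooth u) (hv : S.Smooth v) (x : X) :
    S.grad (fun y => u y * v y) x = v x • S.grad u x + u x • S.grad v x := by
  have h := S.grad_comp ![u, v] mulΦ (Fin.forall_fin_two.2 ⟨hu, hv⟩) contDiff_mulΦ x
  have hp : ∀ y, part mulΦ 0 y = y 1 ∧ part mulΦ 1 y = y 0 := by
    intro y
    have h := (hasFDerivAt_apply (𝕜 := ℝ) (0 : Fin 2) y).mul
      (hasFDerivAt_apply (𝕜 := ℝ) (1 : Fin 2) y)
    constructor <;> rw [part, HasFDerivAt.fderiv (f := mulΦ) h] <;> simp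
  simp only [(hp _).1, (hp _).2, Fin.sum_univ_two] at h
  exact h

end Comp

section Green

variable {u v : X → ℝ}

lemma smooth_lap (hu : S.Smooth u) : S.Smooth (S.lap u) := S.smooth_trace hu

lemma continuous_lap (hu : S.Smooth u) : Continuous (S.lap u) :=
  S.continuous_of_smooth (S.smooth_trace hu)

lemma continuous_ip (hu : S.Smooth u) (hv : S.Smooth v) : Continuous (S.ip u v) :=
  S.continuous_of_smooth (S.smooth_ip hu hv)

lemma integral_mul_lap (hu : S.Smooth u) (hv : S.Smooth v) :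
    ∫ x, v x * S.lap u x ∂S.vol = -∫ x, S.ip v u x ∂S.vol := S.green hu hv

lemma integral_lap (hu : S.Smooth u) : ∫ x, S.lap u x ∂S.vol = 0 := by
  simpa [lap, S.grad_const] using S.green hu (S.smooth_const 1)

/-- Testing against a function of `u`. -/
lemma integral_comp_mul_lap {φ : ℝ → ℝ} (hu : S.Smooth u) (hv : S.Smooth v)
    (hφ : ContDiff ℝ ∞ φ) :
    ∫ x, φ (u x) * S.lap v x ∂S.vol = -∫ x, deriv φ (u x) * S.ip u v x ∂S.vol := by
  rw [S.integral_mul_lap hv (S.smooth_comp₁ hu hφ)]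
  simp [ip, S.grad_comp₁ hu hφ]

end Green

section Integral

variable [CompactSpace X] [BorelSpace X] {u v : X → ℝ}

lemma integrable {f : X → ℝ} (hf : Continuous f) : Integrable f S.vol := by
  obtain ⟨C, hC⟩ := isCompact_univ.exists_bound_of_continuousOn hf.continuousOn
  exact Integrable.of_bound hf.aestronglyMeasurable C
    (Filter.Eventually.of_forall fun x => hC x (Set.mem_univ x))

/-- The integrated Bochner formula. -/
lemma integral_mdot_self (hu : S.Smooth u) :
    ∫ x, mdot (S.hess u x) (S.hess u x) ∂S.vol =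
      (∫ x, S.lap u x ^ 2 ∂S.vol) - 3 * ∫ x, S.ip u u x ∂S.vol := by
  have h := S.bochner (S.smooth_const 1) hu hu
  simp only [S.grad_const, zero_dotProduct, integral_zero, neg_zero, one_mul] at h
  have i1 := S.integrable (S.continuous_mdot hu hu)
  have i2 := S.integrable (f := fun x => S.lap u x ^ 2) ((S.continuous_lap hu).pow 2)
  have i3 := (S.integrable (S.continuous_ip hu hu)).const_mul 3
  have e : ∫ x, (mdot (S.hess u x) (S.hess u x) - S.lap u x ^ 2 + 3 * S.ip u u x) ∂S.vol = 0 := by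
    rw [← h]
    simp [lap, ip, pow_two]
  rw [integral_add (i1.sub' i2) i3, integral_sub i1 i2, integral_const_mul] at e
  linarith

/-- Lichnerowicz's inequality. -/
lemma lichnerowicz (hu : S.Smooth u) :
    4 * ∫ x, S.ip u u x ∂S.vol ≤ ∫ x, S.lap u x ^ 2 ∂S.vol := by
  have h := integral_mono (S.integrable (f := fun x => S.lap u x ^ 2) ((S.continuous_lap hu).pow 2))
    ((S.integrable (S.continuous_mdot hu hu)).const_mul 4) (S.lap_sq_le u)
  rw [integral_const_mul, S.integral_mdot_self hu] at h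
  linarith

end Integral

end ScalarGeom

end

end Vale.Agent.P211.Analytic
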