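import Mathlib
import Vale.Agent.P211.Analytic.Facade
import Vale.Agent.P211.Analytic.Clip

/-!
P211, module D (note 1326): a pair of smooth functions that almost solves the Euler-Lagrange system
of `∫ |df|^2/2 + |dg|^2/2 + Ψ(x, f, g)`.  No compactness is used: a near minimiser `w`, then a
minimising sequence of the strictly convex proximal problem around `w`.
-/

open MeasureTheory Filter Topology
open scoped ContDiff

namespace Vale.Agent.P211.Analytic

noncomputable section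

lemma _root_.MeasureTheory.Integrable.fadd {α : Type*} {m : MeasurableSpace α} {μ : Measure α}
    {f g : α → ℝ} (hf : Integrable f μ) (hg : Integrable g μ) :
    Integrable (fun x => f x + g x) μ := hf.add hg

/-- A potential in two variables with Lipschitz gradient, pushing both of them into `[0, M]`. -/
structure Pen (X : Type*) [TopologicalSpace X] where
  /-- The potential. -/
  Ψ : X → ℝ → ℝ → ℝ
  /-- Its derivative in the first variable. -/
  Ψ₁ : X → ℝ → ℝ → ℝ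
  /-- Its derivative in the second variable. -/
  Ψ₂ : X → ℝ → ℝ → ℝ
  /-- The Lipschitz bound. -/
  Lp : ℝ
  /-- The upper end of the band. -/
  M : ℝ
  M_nonneg : 0 ≤ M
  Lp_nonneg : 0 ≤ Lp
  cont : Continuous fun p : X × ℝ × ℝ => Ψ p.1 p.2.1 p.2.2
  cont₁ : Continuous fun p : X × ℝ × ℝ => Ψ₁ p.1 p.2.1 p.2.2
  cont₂ : Continuous fun p : X × ℝ × ℝ => Ψ₂ p.1 p.2.1 p.2.2
  deriv₁ : ∀ x s t, HasDerivAt (fun s => Ψ x s t) (Ψ₁ x s t) s
  deriv₂ : ∀ x s t, HasDerivAt (fun t => Ψ x s t) (Ψ₂ x s t) t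
  lip₁ : ∀ x s t s' t', |Ψ₁ x s t - Ψ₁ x s' t'| ≤ Lp * (|s - s'| + |t - t'|)
  lip₂ : ∀ x s t s' t', |Ψ₂ x s t - Ψ₂ x s' t'| ≤ Lp * (|s - s'| + |t - t'|)
  push₁ : ∀ x s t, (s ≤ 0 → Ψ₁ x s t ≤ 0) ∧ (M ≤ s → 0 ≤ Ψ₁ x s t)
  push₂ : ∀ x s t, (t ≤ 0 → Ψ₂ x s t ≤ 0) ∧ (M ≤ t → 0 ≤ Ψ₂ x s t)

/-- Second order bound from a Lipschitz derivative. -/
lemma abs_sub_linear_le {g g' : ℝ → ℝ} {L : ℝ} (hL : 0 ≤ L) (hg : ∀ s, HasDerivAt g (g' s) s)
    (hlip : ∀ s s', |g' s - g' s'| ≤ L * |s - s'|) (a h : ℝ) :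
    |g (a + h) - g a - g' a * h| ≤ L * h ^ 2 := by
  have hd : ∀ t ∈ Set.Icc (0 : ℝ) 1, HasDerivWithinAt (fun t => g (a + t * h) - t * (g' a * h))
      ((g' (a + t * h) - g' a) * h) (Set.Icc 0 1) t := by
    intro t _
    have h1 := (hg (a + t * h)).comp t (((hasDerivAt_id' t).mul_const h).const_add a)
    have h2 := h1.sub ((hasDerivAt_id' t).mul_const (g' a * h))
    refine (HasDerivAt.congr_deriv h2 ?_).hasDerivWithinAt
    ring
  have := norm_image_sub_le_of_norm_deriv_le_segment' hd (C := L * h ^ 2) (fun t ht => ?_) 1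
    (Set.right_mem_Icc.2 zero_le_one)
  · simpa [Real.norm_eq_abs, sub_right_comm] using this
  · rw [Real.norm_eq_abs, abs_mul]
    refine (mul_le_mul_of_nonneg_right (hlip _ _) (abs_nonneg h)).trans ?_
    rw [add_sub_cancel_left, abs_mul, abs_of_nonneg ht.1, pow_two, ← abs_mul_abs_self h]
    calc L * (t * |h|) * |h| = t * (L * (|h| * |h|)) := by ring
      _ ≤ 1 * (L * (|h| * |h|)) :=
        mul_le_mul_of_nonneg_right ht.2.le (mul_nonneg hL (mul_self_nonneg _))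
      _ = L * (|h| * |h|) := one_mul _

lemma Pen.taylor {X : Type*} [TopologicalSpace X] (P : Pen X) (x : X) (s t h k : ℝ) :
    |P.Ψ x (s + h) (t + k) - P.Ψ x s t - P.Ψ₁ x s t * h - P.Ψ₂ x s t * k| ≤
      2 * P.Lp * (h ^ 2 + k ^ 2) := by
  have h1 := abs_sub_linear_le P.Lp_nonneg (fun r => P.deriv₁ x r (t + k))
    (fun a b => by simpa using P.lip₁ x a (t + k) b (t + k)) s h
  have h2 := abs_sub_linear_le P.Lp_nonneg (fun r => P.deriv₂ x s r)
    (fun a b => by simpa using P.lip₂ x s a s b) t k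
  have h3 : |(P.Ψ₁ x s (t + k) - P.Ψ₁ x s t) * h| ≤ P.Lp * (|k| * |h|) := by
    rw [abs_mul, ← mul_assoc]
    exact mul_le_mul_of_nonneg_right (by simpa using P.lip₁ x s (t + k) s t) (abs_nonneg h)
  have h4 : |k| * |h| ≤ h ^ 2 + k ^ 2 := by
    nlinarith [sq_nonneg (|k| - |h|), sq_abs k, sq_abs h]
  have h5 := mul_le_mul_of_nonneg_left h4 P.Lp_nonneg
  rw [abs_le] at h1 h2 h3 ⊢
  constructor <;> nlinarith [h1.1, h1.2, h2.1, h2.2, h3.1, h3.2]

/-- Moving a variable towards `[0, M]` lowers a function pushing into it. -/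
lemma le_of_push {g g' : ℝ → ℝ} {M : ℝ} (hg : ∀ s, HasDerivAt g (g' s) s)
    (hp : ∀ s, (s ≤ 0 → g' s ≤ 0) ∧ (M ≤ s → 0 ≤ g' s)) {a b : ℝ}
    (h : (a ≤ b ∧ b ≤ 0) ∨ (M ≤ b ∧ b ≤ a)) : g b ≤ g a := by
  have hd : Differentiable ℝ g := fun s => (hg s).differentiableAt
  rcases h with ⟨h1, h2⟩ | ⟨h1, h2⟩
  · exact (antitoneOn_of_deriv_nonpos (convex_Iic 0) hd.continuous.continuousOn hd.differentiableOn
      fun s hs => by
        rw [interior_Iic] at hs
        exact (hg s).deriv ▸ (hp s).1 (le_of_lt hs)) (h1.trans h2) h2 h1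
  · exact (monotoneOn_of_deriv_nonneg (convex_Ici M) hd.continuous.continuousOn hd.differentiableOn
      fun s hs => by
        rw [interior_Ici] at hs
        exact (hg s).deriv ▸ (hp s).2 (le_of_lt hs)) h1 (h1.trans h2) h2

lemma le_of_clip {g g' : ℝ → ℝ} {M a b : ℝ} (ha : a ≤ 0) (hb : M ≤ b)
    (hg : ∀ s, HasDerivAt g (g' s) s) (hp : ∀ s, (s ≤ 0 → g' s ≤ 0) ∧ (M ≤ s → 0 ≤ g' s))
    {θ : ℝ → ℝ} (hid : ∀ s ∈ Set.Icc a b, θ s = s)
    (hθ : ∀ s, (s ≤ a → s ≤ θ s ∧ θ s ≤ a) ∧ (b ≤ s → b ≤ θ s ∧ θ s ≤ s)) (s : ℝ) :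
    g (θ s) ≤ g s := by
  rcases le_or_gt s a with h | h
  · exact le_of_push hg hp (Or.inl ⟨((hθ s).1 h).1, ((hθ s).1 h).2.trans ha⟩)
  rcases le_or_gt b s with h' | h'
  · exact le_of_push hg hp (Or.inr ⟨hb.trans ((hθ s).2 h').1, ((hθ s).2 h').2⟩)
  · rw [hid s ⟨h.le, h'.le⟩]

variable {X : Type*} [TopologicalSpace X] [MeasurableSpace X]

namespace ScalarGeom

variable (S : ScalarGeom X) (P : Pen X)

/-- The energy density of the proximal problem around `w`. -/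
def dens (Λ : ℝ) (w z : (X → ℝ) × (X → ℝ)) (x : X) : ℝ :=
  S.ip z.1 z.1 x / 2 + S.ip z.2 z.2 x / 2 + P.Ψ x (z.1 x) (z.2 x) +
    Λ / 2 * ((z.1 x - w.1 x) ^ 2 + (z.2 x - w.2 x) ^ 2)

/-- The energy of the proximal problem around `w`. -/
def prox (Λ : ℝ) (w z : (X → ℝ) × (X → ℝ)) : ℝ := ∫ x, S.dens P Λ w z x ∂S.vol

/-- Both components are smooth. -/
def Smooth₂ (z : (X → ℝ) × (X → ℝ)) : Prop := S.Smooth z.1 ∧ S.Smooth z.2

variable [CompactSpace X] [BorelSpace X]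

omit [CompactSpace X] [BorelSpace X] in
lemma ip_comp₁ {u : X → ℝ} {φ : ℝ → ℝ} (hu : S.Smooth u) (hφ : ContDiff ℝ ∞ φ) (x : X) :
    S.ip (fun y => φ (u y)) (fun y => φ (u y)) x = deriv φ (u x) ^ 2 * S.ip u u x := by
  simp only [ip, S.grad_comp₁ hu hφ, smul_dotProduct, dotProduct_smul, smul_eq_mul]
  ring

omit [CompactSpace X] [BorelSpace X] in
lemma ip_lin {u v : X → ℝ} (hu : S.Smooth u) (hv : S.Smooth v) (a b : ℝ) (x : X) :
    S.ip (fun y => a * u y + b * v y) (fun y => a * u y + b * v y) x =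
      a ^ 2 * S.ip u u x + 2 * a * b * S.ip u v x + b ^ 2 * S.ip v v x := by
  simp only [ip, S.grad_lin hu hv, add_dotProduct, dotProduct_add, smul_dotProduct,
    dotProduct_smul, smul_eq_mul, dotProduct_comm (S.grad v x) (S.grad u x)]
  ring

omit [CompactSpace X] [BorelSpace X] in
lemma ip_sub {u v : X → ℝ} (hu : S.Smooth u) (hv : S.Smooth v) (x : X) :
    S.ip (fun y => u y - v y) (fun y => u y - v y) x =
      S.ip u u x - 2 * S.ip u v x + S.ip v v x := by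
  have := S.ip_lin hu hv 1 (-1) x
  simp only [one_mul, neg_one_mul, ← sub_eq_add_neg] at this
  rw [this]
  ring

omit [MeasurableSpace X] [CompactSpace X] [BorelSpace X] in
lemma continuous_pen {f : X → ℝ → ℝ → ℝ} (hf : Continuous fun p : X × ℝ × ℝ => f p.1 p.2.1 p.2.2)
    {u v : X → ℝ} (hu : Continuous u) (hv : Continuous v) :
    Continuous fun x => f x (u x) (v x) :=
  hf.comp (continuous_id.prodMk (hu.prodMk hv))

lemma integrable_dens {Λ : ℝ} {w z : (X → ℝ) × (X → ℝ)} (hw : S.Smooth₂ w) (hz : S.Smooth₂ z) :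
    Integrable (S.dens P Λ w z) S.vol := by
  have h1 := S.continuous_ip hz.1 hz.1
  have h2 := S.continuous_ip hz.2 hz.2
  have c1 := S.continuous_of_smooth hz.1
  have c2 := S.continuous_of_smooth hz.2
  have d1 := S.continuous_of_smooth hw.1
  have d2 := S.continuous_of_smooth hw.2
  have h3 := continuous_pen P.cont c1 c2
  exact S.integrable (by unfold dens; fun_prop)

/-- Clipping into a band containing `w` does not raise the energy. -/
lemma exists_prox_clip {Λ : ℝ} (hΛ : 0 ≤ Λ) {w z : (X → ℝ) × (X → ℝ)} (hw : S.Smooth₂ w)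
    (hz : S.Smooth₂ z) {a b δ : ℝ} (ha : a ≤ 0) (hb : P.M ≤ b) (hδ : 0 < δ)
    (hwb : ∀ x, (w.1 x ∈ Set.Icc a b ∧ w.2 x ∈ Set.Icc a b)) :
    ∃ z', S.Smooth₂ z' ∧ S.prox P Λ w z' ≤ S.prox P Λ w z ∧
      ∀ x, z'.1 x ∈ Set.Icc (a - δ) (b + δ) ∧ z'.2 x ∈ Set.Icc (a - δ) (b + δ) := by
  obtain ⟨θ, hθs, hθd, hid, hrange, hlip, hθ⟩ :=
    exists_clip (ha.trans (P.M_nonneg.trans hb)) hδ
  refine ⟨⟨fun x => θ (z.1 x), fun x => θ (z.2 x)⟩,
    ⟨S.smooth_comp₁ hz.1 hθs, S.smooth_comp₁ hz.2 hθs⟩, ?_, fun x => ⟨hrange _, hrange _⟩⟩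
  have hz' : S.Smooth₂ (fun x => θ (z.1 x), fun x => θ (z.2 x)) :=
    ⟨S.smooth_comp₁ hz.1 hθs, S.smooth_comp₁ hz.2 hθs⟩
  refine integral_mono (S.integrable_dens P hw hz') (S.integrable_dens P hw hz) fun x => ?_
  have hg : ∀ {u : X → ℝ}, S.Smooth u → S.ip (fun y => θ (u y)) (fun y => θ (u y)) x ≤ S.ip u u x :=
    fun {u} hu => by
      rw [S.ip_comp₁ hu hθs]
      exact mul_le_of_le_one_left (S.ip_self_nonneg u x)
        (pow_le_one₀ (hθd _).1 (hθd _).2)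
  have hΨ : P.Ψ x (θ (z.1 x)) (θ (z.2 x)) ≤ P.Ψ x (z.1 x) (z.2 x) :=
    (le_of_clip ha hb (fun s => P.deriv₁ x s _) (fun s => P.push₁ x s _) hid hθ (z.1 x)).trans
      (le_of_clip ha hb (fun t => P.deriv₂ x _ t) (fun t => P.push₂ x _ t) hid hθ (z.2 x))
  have hsq : ∀ s c, c ∈ Set.Icc a b → (θ s - c) ^ 2 ≤ (s - c) ^ 2 := fun s c hc => by
    have := hlip s c
    rw [hid c hc] at this
    exact sq_le_sq.2 this
  have h1 := hg hz.1
  have h2 := hg hz.2
  have h3 := mul_le_mul_of_nonneg_left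
    (add_le_add (hsq (z.1 x) _ (hwb x).1) (hsq (z.2 x) _ (hwb x).2)) (show 0 ≤ Λ / 2 by positivity)
  simp only [dens]
  linarith

/-- The energy is bounded below. -/
lemma exists_lower_bound : ∃ m, ∀ Λ, 0 ≤ Λ → ∀ w z : (X → ℝ) × (X → ℝ),
    S.Smooth₂ w → S.Smooth₂ z → m ≤ S.prox P Λ w z := by
  obtain ⟨θ, hθs, hθd, hid, hrange, -, hθ⟩ := exists_clip P.M_nonneg one_pos
  obtain ⟨C, hC⟩ := (isCompact_univ (X := X)).prod ((isCompact_Icc (a := (0 : ℝ) - 1) (b := P.M + 1)).prod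
    (isCompact_Icc (a := (0 : ℝ) - 1) (b := P.M + 1))) |>.exists_bound_of_continuousOn
    P.cont.continuousOn
  refine ⟨∫ _, -C ∂S.vol, fun Λ hΛ w z hw hz => integral_mono (integrable_const _)
    (S.integrable_dens P hw hz) fun x => ?_⟩
  have h1 := hC (x, θ (z.1 x), θ (z.2 x)) ⟨Set.mem_univ x, hrange _, hrange _⟩
  have h2 : P.Ψ x (θ (z.1 x)) (θ (z.2 x)) ≤ P.Ψ x (z.1 x) (z.2 x) :=
    (le_of_clip le_rfl le_rfl (fun s => P.deriv₁ x s _) (fun s => P.push₁ x s _) hid hθ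
      (z.1 x)).trans
      (le_of_clip le_rfl le_rfl (fun t => P.deriv₂ x _ t) (fun t => P.push₂ x _ t) hid hθ (z.2 x))
  have h3 := mul_nonneg (show 0 ≤ Λ / 2 by positivity)
    (add_nonneg (sq_nonneg (z.1 x - w.1 x)) (sq_nonneg (z.2 x - w.2 x)))
  have h4 := S.ip_self_nonneg z.1 x
  have h5 := S.ip_self_nonneg z.2 x
  simp only [Real.norm_eq_abs] at h1
  simp only [dens]
  linarith [(abs_le.1 h1).1]

/-- The energy norm of a pair. -/
def sqNorm (u v : X → ℝ) : ℝ :=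
  (∫ x, (u x - v x) ^ 2 ∂S.vol) + ∫ x, S.ip (fun y => u y - v y) (fun y => u y - v y) x ∂S.vol

omit [CompactSpace X] [BorelSpace X] in
lemma sqNorm_nonneg (u v : X → ℝ) : 0 ≤ S.sqNorm u v :=
  add_nonneg (integral_nonneg fun _ => sq_nonneg _) (integral_nonneg fun _ => S.ip_self_nonneg _ _)

/-- Uniform convexity of the proximal energy. -/
lemma prox_convex {Λ : ℝ} (hΛ : 4 * P.Lp + 4 ≤ Λ) {w z z' : (X → ℝ) × (X → ℝ)}
    (hw : S.Smooth₂ w) (hz : S.Smooth₂ z) (hz' : S.Smooth₂ z') :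
    ∃ m, S.Smooth₂ m ∧ (S.sqNorm z.1 z'.1 + S.sqNorm z.2 z'.2) / 4 + 2 * S.prox P Λ w m ≤
      S.prox P Λ w z + S.prox P Λ w z' := by
  set m : (X → ℝ) × (X → ℝ) :=
    ⟨fun x => 1 / 2 * z.1 x + 1 / 2 * z'.1 x, fun x => 1 / 2 * z.2 x + 1 / 2 * z'.2 x⟩
  have hm : S.Smooth₂ m := ⟨S.smooth_lin hz.1 hz'.1 _ _, S.smooth_lin hz.2 hz'.2 _ _⟩
  refine ⟨m, hm, ?_⟩
  have hs1 := S.smooth_sub hz.1 hz'.1
  have hs2 := S.smooth_sub hz.2 hz'.2
  have i1 := S.integrable (f := fun x => (z.1 x - z'.1 x) ^ 2)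
    ((S.continuous_of_smooth hs1).pow 2)
  have i2 := S.integrable (S.continuous_ip hs1 hs1)
  have i3 := S.integrable (f := fun x => (z.2 x - z'.2 x) ^ 2)
    ((S.continuous_of_smooth hs2).pow 2)
  have i4 := S.integrable (S.continuous_ip hs2 hs2)
  have key := integral_mono (((i1.fadd i2).fadd (i3.fadd i4)).div_const 4 |>.fadd
    ((S.integrable_dens P (Λ := Λ) hw hm).const_mul 2))
    ((S.integrable_dens P (Λ := Λ) hw hz).fadd (S.integrable_dens P (Λ := Λ) hw hz')) (fun x => ?_)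
  · rw [integral_add (((i1.fadd i2).fadd (i3.fadd i4)).div_const 4)
      ((S.integrable_dens P hw hm).const_mul 2), integral_div,
      integral_add (i1.fadd i2) (i3.fadd i4), integral_add i1 i2, integral_add i3 i4,
      integral_const_mul, integral_add (S.integrable_dens P hw hz) (S.integrable_dens P hw hz')]
      at key
    exact key
  have e1 := S.ip_lin hz.1 hz'.1 (1 / 2) (1 / 2) x
  have e2 := S.ip_lin hz.2 hz'.2 (1 / 2) (1 / 2) x
  have e3 := S.ip_sub hz.1 hz'.1 x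
  have e4 := S.ip_sub hz.2 hz'.2 x
  have t1 := P.taylor x (m.1 x) (m.2 x) ((z.1 x - z'.1 x) / 2) ((z.2 x - z'.2 x) / 2)
  have t2 := P.taylor x (m.1 x) (m.2 x) ((z'.1 x - z.1 x) / 2) ((z'.2 x - z.2 x) / 2)
  simp only [m] at t1 t2
  ring_nf at t1 t2
  have hL := mul_nonneg (sub_nonneg.2 hΛ)
    (add_nonneg (sq_nonneg (z.1 x - z'.1 x)) (sq_nonneg (z.2 x - z'.2 x)))
  have q1 := S.ip_self_nonneg (fun y => z.1 y - z'.1 y) x
  have q2 := S.ip_self_nonneg (fun y => z.2 y - z'.2 y) x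
  simp only [dens, m]
  rw [e1, e2, e3, e4]
  rw [abs_le] at t1 t2
  have s1 := add_nonneg (sq_nonneg (z.1 x - z'.1 x)) (sq_nonneg (z.2 x - z'.2 x))
  ring_nf at t1 t2 hL q1 q2 e3 e4 s1 ⊢
  linarith [t1.1, t2.1]

/-- First variation in the first variable. -/
lemma prox_variation {Λ δ inf : ℝ} (hΛ : 0 ≤ Λ) (hδ : 0 ≤ δ) {w z : (X → ℝ) × (X → ℝ)}
    (hw : S.Smooth₂ w) (hz : S.Smooth₂ z)
    (hinf : ∀ z', S.Smooth₂ z' → inf ≤ S.prox P Λ w z') (hle : S.prox P Λ w z ≤ inf + δ)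
    {φ : X → ℝ} (hφ : S.Smooth φ) :
    |∫ x, (S.ip z.1 φ x + (P.Ψ₁ x (z.1 x) (z.2 x) + Λ * (z.1 x - w.1 x)) * φ x) ∂S.vol| ≤
        √(4 * (2 * P.Lp + Λ + 1) * δ) * √(∫ x, (φ x ^ 2 + S.ip φ φ x) ∂S.vol) ∧
    |∫ x, (S.ip z.2 φ x + (P.Ψ₂ x (z.1 x) (z.2 x) + Λ * (z.2 x - w.2 x)) * φ x) ∂S.vol| ≤
        √(4 * (2 * P.Lp + Λ + 1) * δ) * √(∫ x, (φ x ^ 2 + S.ip φ φ x) ∂S.vol) := by
  have c1 := S.continuous_of_smooth hz.1
  have c2 := S.continuous_of_smooth hz.2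
  have d1 := S.continuous_of_smooth hw.1
  have d2 := S.continuous_of_smooth hw.2
  have cφ := S.continuous_of_smooth hφ
  have p1 := continuous_pen P.cont₁ c1 c2
  have p2 := continuous_pen P.cont₂ c1 c2
  have a1 := S.continuous_ip hz.1 hφ
  have a2 := S.continuous_ip hz.2 hφ
  have iN : Integrable (fun x => φ x ^ 2 + S.ip φ φ x) S.vol :=
    S.integrable ((cφ.pow 2).add (S.continuous_ip hφ hφ))
  set N := ∫ x, (φ x ^ 2 + S.ip φ φ x) ∂S.vol
  set C := 2 * P.Lp + Λ + 1 with hCdef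
  have hC : 0 ≤ C := by have := P.Lp_nonneg; positivity
  have fin : ∀ D : ℝ, (∀ t : ℝ, 0 ≤ C * N * t ^ 2 + D * t + δ) →
      |D| ≤ √(4 * C * δ) * √N := fun D h => by
    have := discrim_le_zero (a := C * N) (b := D) (c := δ) fun t => (h t).trans_eq (by ring)
    rw [← Real.sqrt_mul (by positivity), ← Real.sqrt_sq_eq_abs]
    refine Real.sqrt_le_sqrt ?_
    simp only [discrim] at this
    linarith
  have hN0 : ∀ x, 0 ≤ S.ip φ φ x := S.ip_self_nonneg φ
  constructor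
  all_goals refine fin _ fun t => ?_
  · have hv : S.Smooth₂ (fun x => 1 * z.1 x + t * φ x, z.2) := ⟨S.smooth_lin hz.1 hφ _ _, hz.2⟩
    have iD : Integrable (fun x => S.ip z.1 φ x +
        (P.Ψ₁ x (z.1 x) (z.2 x) + Λ * (z.1 x - w.1 x)) * φ x) S.vol :=
      S.integrable (by fun_prop)
    have key := integral_mono (S.integrable_dens P (Λ := Λ) hw hv)
      (((S.integrable_dens P (Λ := Λ) hw hz).fadd (iD.const_mul t)).fadd (iN.const_mul (C * t ^ 2)))
      (fun x => ?_)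
    · rw [integral_add ((S.integrable_dens P hw hz).fadd (iD.const_mul t))
        (iN.const_mul (C * t ^ 2)), integral_add (S.integrable_dens P hw hz) (iD.const_mul t),
        integral_const_mul, integral_const_mul] at key
      have := hinf _ hv
      simp only [prox] at this hle
      linarith
    have e1 := S.ip_lin hz.1 hφ 1 t x
    have t1 := (abs_le.1 (P.taylor x (z.1 x) (z.2 x) (t * φ x) 0)).2
    simp only [add_zero] at t1
    have q1 := mul_nonneg (sq_nonneg t) (hN0 x)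
    have q2 := mul_nonneg (mul_nonneg (sq_nonneg t) (hN0 x))
      (show 0 ≤ 2 * P.Lp + Λ from add_nonneg (mul_nonneg two_pos.le P.Lp_nonneg) hΛ)
    have q3 := mul_nonneg (sq_nonneg (t * φ x)) (show 0 ≤ Λ + 2 by linarith)
    simp only [dens, hCdef]
    rw [e1]
    simp only [one_mul]
    ring_nf at t1 q1 q2 q3 ⊢
    linarith
  · have hv : S.Smooth₂ (z.1, fun x => 1 * z.2 x + t * φ x) := ⟨hz.1, S.smooth_lin hz.2 hφ _ _⟩
    have iD : Integrable (fun x => S.ip z.2 φ x +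
        (P.Ψ₂ x (z.1 x) (z.2 x) + Λ * (z.2 x - w.2 x)) * φ x) S.vol :=
      S.integrable (by fun_prop)
    have key := integral_mono (S.integrable_dens P (Λ := Λ) hw hv)
      (((S.integrable_dens P (Λ := Λ) hw hz).fadd (iD.const_mul t)).fadd (iN.const_mul (C * t ^ 2)))
      (fun x => ?_)
    · rw [integral_add ((S.integrable_dens P hw hz).fadd (iD.const_mul t))
        (iN.const_mul (C * t ^ 2)), integral_add (S.integrable_dens P hw hz) (iD.const_mul t),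
        integral_const_mul, integral_const_mul] at key
      have := hinf _ hv
      simp only [prox] at this hle
      linarith
    have e1 := S.ip_lin hz.2 hφ 1 t x
    have t1 := (abs_le.1 (P.taylor x (z.1 x) (z.2 x) 0 (t * φ x))).2
    simp only [add_zero] at t1
    have q1 := mul_nonneg (sq_nonneg t) (hN0 x)
    have q2 := mul_nonneg (mul_nonneg (sq_nonneg t) (hN0 x))
      (show 0 ≤ 2 * P.Lp + Λ from add_nonneg (mul_nonneg two_pos.le P.Lp_nonneg) hΛ)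
    have q3 := mul_nonneg (sq_nonneg (t * φ x)) (show 0 ≤ Λ + 2 by linarith)
    simp only [dens, hCdef]
    rw [e1]
    simp only [one_mul]
    ring_nf at t1 q1 q2 q3 ⊢
    linarith

omit [CompactSpace X] [BorelSpace X] in
lemma sqNorm_le {u v : X → ℝ} (hu : S.Smooth u) (hv : S.Smooth v) :
    (∫ x, (u x - v x) ^ 2 ∂S.vol) ≤ S.sqNorm u v ∧
      ∫ x, (S.grad u x - S.grad v x) ⬝ᵥ (S.grad u x - S.grad v x) ∂S.vol ≤ S.sqNorm u v := by
  refine ⟨le_add_of_nonneg_right (integral_nonneg fun _ => S.ip_self_nonneg _ _), ?_⟩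
  rw [show (fun x => (S.grad u x - S.grad v x) ⬝ᵥ (S.grad u x - S.grad v x)) =
    S.ip (fun y => u y - v y) (fun y => u y - v y) from funext fun x => by
      simp only [ip, S.grad_sub hu hv]]
  exact le_add_of_nonneg_left (integral_nonneg fun _ => sq_nonneg _)

/-- Lipschitz dependence of the forcing on the pair. -/
lemma integral_pen_sub_sq {f : X → ℝ → ℝ → ℝ}
    (hf : Continuous fun p : X × ℝ × ℝ => f p.1 p.2.1 p.2.2) {L : ℝ} (hL : 0 ≤ L)
    (hlip : ∀ x s t s' t', |f x s t - f x s' t'| ≤ L * (|s - s'| + |t - t'|))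
    {z z' : (X → ℝ) × (X → ℝ)} (hz : S.Smooth₂ z) (hz' : S.Smooth₂ z') :
    ∫ x, (f x (z.1 x) (z.2 x) - f x (z'.1 x) (z'.2 x)) ^ 2 ∂S.vol ≤
      2 * L ^ 2 * ((∫ x, (z.1 x - z'.1 x) ^ 2 ∂S.vol) + ∫ x, (z.2 x - z'.2 x) ^ 2 ∂S.vol) := by
  have c1 := S.continuous_of_smooth hz.1
  have c2 := S.continuous_of_smooth hz.2
  have d1 := S.continuous_of_smooth hz'.1
  have d2 := S.continuous_of_smooth hz'.2
  have i0 := S.integrable (((continuous_pen hf c1 c2).sub (continuous_pen hf d1 d2)).pow 2)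
  have i1 := S.integrable (f := fun x => (z.1 x - z'.1 x) ^ 2) (by fun_prop)
  have i2 := S.integrable (f := fun x => (z.2 x - z'.2 x) ^ 2) (by fun_prop)
  have key := integral_mono i0 ((i1.fadd i2).const_mul (2 * L ^ 2)) fun x => by
    have h := hlip x (z.1 x) (z.2 x) (z'.1 x) (z'.2 x)
    have h2 := pow_le_pow_left₀ (abs_nonneg _) h 2
    rw [sq_abs, mul_pow] at h2
    refine h2.trans ?_
    rw [← sq_abs (z.1 x - z'.1 x), ← sq_abs (z.2 x - z'.2 x), mul_assoc 2]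
    calc L ^ 2 * (|z.1 x - z'.1 x| + |z.2 x - z'.2 x|) ^ 2
        ≤ L ^ 2 * (2 * (|z.1 x - z'.1 x| ^ 2 + |z.2 x - z'.2 x| ^ 2)) :=
          mul_le_mul_of_nonneg_left add_sq_le (sq_nonneg L)
      _ = _ := by ring
  rw [integral_const_mul, integral_add i1 i2] at key
  exact key

/-- A smooth pair in the band with small residual in mean square. -/
theorem exists_almost_solution (ε : ℝ) (hε : 0 < ε) :
    ∃ f g : X → ℝ, S.Smooth f ∧ S.Smooth g ∧
      (∀ x, f x ∈ Set.Icc (-ε) (P.M + ε) ∧ g x ∈ Set.Icc (-ε) (P.M + ε)) ∧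
      (∫ x, (S.lap f x - P.Ψ₁ x (f x) (g x)) ^ 2 ∂S.vol) < ε ∧
      (∫ x, (S.lap g x - P.Ψ₂ x (f x) (g x)) ^ 2 ∂S.vol) < ε := by
  set L := P.Lp
  have hL := P.Lp_nonneg
  set Λ := 4 * L + 4 with hΛdef
  have hΛ : 0 < Λ := by positivity
  -- the near minimiser `w`
  let zero : (X → ℝ) × (X → ℝ) := ⟨fun _ => 0, fun _ => 0⟩
  have hzero : S.Smooth₂ zero := ⟨S.smooth_const 0, S.smooth_const 0⟩
  obtain ⟨m₀, hm₀⟩ := S.exists_lower_bound P
  let A : Set ℝ := {r | ∃ z, S.Smooth₂ z ∧ S.prox P 0 zero z = r}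
  have hA : BddBelow A := ⟨m₀, by rintro r ⟨z, hz, rfl⟩; exact hm₀ 0 le_rfl zero z hzero hz⟩
  set δ := ε / (24 * Λ) with hδdef
  have hδ : 0 < δ := by positivity
  obtain ⟨r₀, ⟨w₀, hw₀, rfl⟩, hw₀lt⟩ :=
    exists_lt_of_csInf_lt (s := A) ⟨_, zero, hzero, rfl⟩ (lt_add_of_pos_right (sInf A) hδ)
  set e := ε / 4 with hedef
  have he : 0 < e := by positivity
  obtain ⟨w, hw, hwle, hwb⟩ := S.exists_prox_clip P le_rfl hzero hw₀ (le_refl (0 : ℝ))
    (le_refl P.M) he fun x => ⟨⟨le_rfl, P.M_nonneg⟩, ⟨le_rfl, P.M_nonneg⟩⟩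
  -- the proximal problem around `w`
  let B : Set ℝ := {r | ∃ z, S.Smooth₂ z ∧ S.prox P Λ w z = r}
  have hB : BddBelow B := ⟨m₀, by rintro r ⟨z, hz, rfl⟩; exact hm₀ Λ hΛ.le w z hw hz⟩
  set ι := sInf B
  have hι : ∀ z, S.Smooth₂ z → ι ≤ S.prox P Λ w z := fun z hz => csInf_le hB ⟨z, hz, rfl⟩
  have hseq : ∀ k : ℕ, ∃ z, S.Smooth₂ z ∧ S.prox P Λ w z ≤ ι + 1 / (k + 1) ∧
      ∀ x, z.1 x ∈ Set.Icc (-e - e) (P.M + e + e) ∧ z.2 x ∈ Set.Icc (-e - e) (P.M + e + e) := by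
    intro k
    obtain ⟨r, ⟨z, hz, rfl⟩, hlt⟩ := exists_lt_of_csInf_lt (s := B) ⟨_, w, hw, rfl⟩
      (lt_add_of_pos_right ι (show (0 : ℝ) < 1 / (k + 1) by positivity))
    obtain ⟨z', hz', hle, hb⟩ := S.exists_prox_clip P hΛ.le hw hz (a := -e) (b := P.M + e)
      (by linarith) (by linarith) he fun x => by
        have := hwb x
        simp only [zero_sub] at this
        exact this
    exact ⟨z', hz', hle.trans hlt.le, hb⟩
  choose z hz hzle hzb using hseq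
  -- Cauchy in energy
  have hcau : ∀ k l : ℕ, S.sqNorm (z k).1 (z l).1 + S.sqNorm (z k).2 (z l).2 ≤
      4 * (1 / ((k : ℝ) + 1) + 1 / ((l : ℝ) + 1)) := by
    intro k l
    obtain ⟨m, hm, hle⟩ := S.prox_convex P hΛdef.ge hw (hz k) (hz l)
    linarith [hι m hm, hzle k, hzle l]
  let h₁ : ℕ → X → ℝ := fun k x =>
    P.Ψ₁ x ((z k).1 x) ((z k).2 x) + Λ * ((z k).1 x - w.1 x)
  let h₂ : ℕ → X → ℝ := fun k x =>
    P.Ψ₂ x ((z k).1 x) ((z k).2 x) + Λ * ((z k).2 x - w.2 x)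
  have hc₁ : ∀ k, Continuous (h₁ k) := fun k => by
    have a1 := S.continuous_of_smooth (hz k).1
    have a2 := S.continuous_of_smooth hw.1
    have a3 := continuous_pen P.cont₁ a1 (S.continuous_of_smooth (hz k).2)
    fun_prop
  have hc₂ : ∀ k, Continuous (h₂ k) := fun k => by
    have a1 := S.continuous_of_smooth (hz k).2
    have a2 := S.continuous_of_smooth hw.2
    have a3 := continuous_pen P.cont₂ (S.continuous_of_smooth (hz k).1) a1
    fun_prop
  -- squares of differences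
  have hdiff₁ : ∀ k l, ∫ x, (h₁ k x - h₁ l x) ^ 2 ∂S.vol ≤
      (4 * L ^ 2 + 2 * Λ ^ 2) * (S.sqNorm (z k).1 (z l).1 + S.sqNorm (z k).2 (z l).2) := fun k l => by
    have q := S.integral_pen_sub_sq P.cont₁ hL P.lip₁ (hz k) (hz l)
    have a1 := S.continuous_of_smooth (hz k).1
    have a2 := S.continuous_of_smooth (hz l).1
    have i0 := S.integrable (f := fun x => (h₁ k x - h₁ l x) ^ 2) (((hc₁ k).sub (hc₁ l)).pow 2)
    have i1 := S.integrable (f := fun x =>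
      (P.Ψ₁ x ((z k).1 x) ((z k).2 x) - P.Ψ₁ x ((z l).1 x) ((z l).2 x)) ^ 2)
      (((continuous_pen P.cont₁ a1 (S.continuous_of_smooth (hz k).2)).sub
        (continuous_pen P.cont₁ a2 (S.continuous_of_smooth (hz l).2))).pow 2)
    have i2 := S.integrable (f := fun x => ((z k).1 x - (z l).1 x) ^ 2) ((a1.sub a2).pow 2)
    have key := integral_mono i0 ((i1.const_mul 2).fadd (i2.const_mul (2 * Λ ^ 2))) fun x => by
      simp only [h₁]
      nlinarith [sq_nonneg ((P.Ψ₁ x ((z k).1 x) ((z k).2 x) - P.Ψ₁ x ((z l).1 x) ((z l).2 x)) -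
        Λ * ((z k).1 x - (z l).1 x))]
    rw [integral_add (i1.const_mul 2) (i2.const_mul _), integral_const_mul, integral_const_mul] at key
    have b1 := (S.sqNorm_le (hz k).1 (hz l).1).1
    have b2 := (S.sqNorm_le (hz k).2 (hz l).2).1
    have b3 := S.sqNorm_nonneg (z k).2 (z l).2
    have b4 := mul_le_mul_of_nonneg_left (add_le_add b1 b2) (show 0 ≤ 4 * L ^ 2 by positivity)
    have b5 := mul_le_mul_of_nonneg_left (b1.trans (le_add_of_nonneg_right b3))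
      (show 0 ≤ 2 * Λ ^ 2 by positivity)
    linarith
  have hdiff₂ : ∀ k l, ∫ x, (h₂ k x - h₂ l x) ^ 2 ∂S.vol ≤
      (4 * L ^ 2 + 2 * Λ ^ 2) * (S.sqNorm (z k).1 (z l).1 + S.sqNorm (z k).2 (z l).2) := fun k l => by
    have q := S.integral_pen_sub_sq P.cont₂ hL P.lip₂ (hz k) (hz l)
    have a1 := S.continuous_of_smooth (hz k).2
    have a2 := S.continuous_of_smooth (hz l).2
    have i0 := S.integrable (f := fun x => (h₂ k x - h₂ l x) ^ 2) (((hc₂ k).sub (hc₂ l)).pow 2)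
    have i1 := S.integrable (f := fun x =>
      (P.Ψ₂ x ((z k).1 x) ((z k).2 x) - P.Ψ₂ x ((z l).1 x) ((z l).2 x)) ^ 2)
      (((continuous_pen P.cont₂ (S.continuous_of_smooth (hz k).1) a1).sub
        (continuous_pen P.cont₂ (S.continuous_of_smooth (hz l).1) a2)).pow 2)
    have i2 := S.integrable (f := fun x => ((z k).2 x - (z l).2 x) ^ 2) ((a1.sub a2).pow 2)
    have key := integral_mono i0 ((i1.const_mul 2).fadd (i2.const_mul (2 * Λ ^ 2))) fun x => by
      simp only [h₂]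
      nlinarith [sq_nonneg ((P.Ψ₂ x ((z k).1 x) ((z k).2 x) - P.Ψ₂ x ((z l).1 x) ((z l).2 x)) -
        Λ * ((z k).2 x - (z l).2 x))]
    rw [integral_add (i1.const_mul 2) (i2.const_mul _), integral_const_mul, integral_const_mul] at key
    have b1 := (S.sqNorm_le (hz k).1 (hz l).1).1
    have b2 := (S.sqNorm_le (hz k).2 (hz l).2).1
    have b3 := S.sqNorm_nonneg (z k).1 (z l).1
    have b4 := mul_le_mul_of_nonneg_left (add_le_add b1 b2) (show 0 ≤ 4 * L ^ 2 by positivity)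
    have b5 := mul_le_mul_of_nonneg_left (b2.trans (le_add_of_nonneg_left b3))
      (show 0 ≤ 2 * Λ ^ 2 by positivity)
    linarith
  have hcauchy : ∀ η > 0, ∃ N, ∀ k ≥ N, ∀ l ≥ N,
      (2 + (4 * L ^ 2 + 2 * Λ ^ 2)) * (S.sqNorm (z k).1 (z l).1 + S.sqNorm (z k).2 (z l).2) < η := by
    intro η hη
    set K := 2 + (4 * L ^ 2 + 2 * Λ ^ 2)
    have hK : 0 < K := by positivity
    obtain ⟨N, hN⟩ := exists_nat_one_div_lt (show 0 < η / (8 * K) by positivity)
    refine ⟨N, fun k hk l hl => ?_⟩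
    have e1 := (Nat.one_div_le_one_div (α := ℝ) hk).trans_lt hN
    have e2 := (Nat.one_div_le_one_div (α := ℝ) hl).trans_lt hN
    calc K * (S.sqNorm (z k).1 (z l).1 + S.sqNorm (z k).2 (z l).2)
        ≤ K * (4 * (1 / ((k : ℝ) + 1) + 1 / ((l : ℝ) + 1))) :=
          mul_le_mul_of_nonneg_left (hcau k l) hK.le
      _ < K * (4 * (η / (8 * K) + η / (8 * K))) :=
          mul_lt_mul_of_pos_left (by linarith) hK
      _ = η := by field_simp; ring
  let er : ℕ → ℝ := fun k => √(4 * (2 * L + Λ + 1) * (1 / ((k : ℝ) + 1)))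
  have her : Tendsto er atTop (𝓝 0) := by
    simpa [er] using (tendsto_one_div_add_atTop_nhds_zero_nat.const_mul (4 * (2 * L + Λ + 1))).sqrt
  have hvar := fun (k : ℕ) φ (hφ : S.Smooth φ) =>
    S.prox_variation P hΛ.le (show (0 : ℝ) ≤ 1 / ((k : ℝ) + 1) by positivity) hw (hz k) hι (hzle k) hφ
  -- back to strong residuals
  set ε' := min e (ε / (8 * (1 + 4 * L ^ 2))) with hε'def
  have hε' : 0 < ε' := lt_min he (by positivity)
  obtain ⟨N₁, hN₁⟩ := S.weakToStrong (fun k => (z k).1) h₁ (fun _ => -e - e) (fun _ => P.M + e + e)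
    er (fun k => (hz k).1) hc₁ continuous_const continuous_const (fun k x => (hzb k x).1)
    (fun η hη => (hcauchy η hη).imp fun N hN k hk l hl => by
      have b := S.sqNorm_le (hz k).1 (hz l).1
      have b3 := S.sqNorm_nonneg (z k).2 (z l).2
      have b4 := hdiff₁ k l
      have b5 := hN k hk l hl
      linarith [b.1, b.2])
    her (fun k φ hφ => (hvar k φ hφ).1) ε' hε'
  obtain ⟨N₂, hN₂⟩ := S.weakToStrong (fun k => (z k).2) h₂ (fun _ => -e - e) (fun _ => P.M + e + e)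
    er (fun k => (hz k).2) hc₂ continuous_const continuous_const (fun k x => (hzb k x).2)
    (fun η hη => (hcauchy η hη).imp fun N hN k hk l hl => by
      have b := S.sqNorm_le (hz k).2 (hz l).2
      have b3 := S.sqNorm_nonneg (z k).1 (z l).1
      have b4 := hdiff₂ k l
      have b5 := hN k hk l hl
      linarith [b.1, b.2])
    her (fun k φ hφ => (hvar k φ hφ).2) ε' hε'
  obtain ⟨N₀, hN₀⟩ := exists_nat_one_div_lt hδ
  set k := max N₀ (max N₁ N₂) with hk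
  obtain ⟨f, hf, hf1, hf2, hf3⟩ := hN₁ k ((le_max_left _ _).trans (le_max_right _ _))
  obtain ⟨g, hg, hg1, hg2, hg3⟩ := hN₂ k ((le_max_right _ _).trans (le_max_right _ _))
  have hεe : ε' ≤ e := min_le_left _ _
  refine ⟨f, g, hf, hg, fun x => ⟨⟨by linarith [(hf3 x).1], by linarith [(hf3 x).2]⟩,
    ⟨by linarith [(hg3 x).1], by linarith [(hg3 x).2]⟩⟩, ?_⟩
  -- the distance to `w`
  have hk1 : 1 / ((k : ℝ) + 1) ≤ δ := (Nat.one_div_le_one_div (le_max_left _ _)).trans hN₀.le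
  have cz1 := S.continuous_of_smooth (hz k).1
  have cz2 := S.continuous_of_smooth (hz k).2
  have cw1 := S.continuous_of_smooth hw.1
  have cw2 := S.continuous_of_smooth hw.2
  have cf := S.continuous_of_smooth hf
  have cg := S.continuous_of_smooth hg
  have id1 := S.integrable (f := fun x => ((z k).1 x - w.1 x) ^ 2) ((cz1.sub cw1).pow 2)
  have id2 := S.integrable (f := fun x => ((z k).2 x - w.2 x) ^ 2) ((cz2.sub cw2).pow 2)
  have hdist : Λ / 2 * ((∫ x, ((z k).1 x - w.1 x) ^ 2 ∂S.vol) +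
      ∫ x, ((z k).2 x - w.2 x) ^ 2 ∂S.vol) ≤ 2 * δ := by
    have e1 : S.prox P Λ w (z k) = S.prox P 0 zero (z k) + Λ / 2 *
        ((∫ x, ((z k).1 x - w.1 x) ^ 2 ∂S.vol) + ∫ x, ((z k).2 x - w.2 x) ^ 2 ∂S.vol) := by
      rw [← integral_add id1 id2, ← integral_const_mul, prox, prox,
        ← integral_add (S.integrable_dens P hzero (hz k)) ((id1.fadd id2).const_mul _)]
      congr 1
      funext x
      simp [dens]
    have e2 : S.prox P Λ w w = S.prox P 0 zero w := by simp [prox, dens]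
    have e3 : sInf A ≤ S.prox P 0 zero (z k) := csInf_le hA ⟨z k, hz k, rfl⟩
    linarith [hι w hw, hzle k]
  have hres : ∀ (v : X → ℝ) (h : X → ℝ) (F : X → ℝ → ℝ → ℝ) (u u₀ : X → ℝ),
      Continuous u → Continuous u₀ → S.Smooth v →
      (Continuous fun p : X × ℝ × ℝ => F p.1 p.2.1 p.2.2) →
      (∀ x s t s' t', |F x s t - F x s' t'| ≤ L * (|s - s'| + |t - t'|)) →
      (∀ x, h x = F x ((z k).1 x) ((z k).2 x) + Λ * (u x - u₀ x)) →
      Λ / 2 * (∫ x, (u x - u₀ x) ^ 2 ∂S.vol) ≤ 2 * δ →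
      (∫ x, (S.lap v x - h x) ^ 2 ∂S.vol) < ε' →
      ∫ x, (S.lap v x - F x (f x) (g x)) ^ 2 ∂S.vol < ε := by
    intro v h F u u₀ cu cu₀ hv hF hFl hdef hd hlt
    have cF := continuous_pen hF cz1 cz2
    have cF' := continuous_pen hF cf cg
    have ch : Continuous h := by rw [funext hdef]; fun_prop
    have i1 := S.integrable (f := fun x => (S.lap v x - h x) ^ 2)
      (((S.continuous_lap hv).sub ch).pow 2)
    have i2 := S.integrable (f := fun x => (u x - u₀ x) ^ 2) ((cu.sub cu₀).pow 2)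
    have i3 := S.integrable (f := fun x => (F x ((z k).1 x) ((z k).2 x) - F x (f x) (g x)) ^ 2)
      ((cF.sub cF').pow 2)
    have i0 := S.integrable (f := fun x => (S.lap v x - F x (f x) (g x)) ^ 2)
      (((S.continuous_lap hv).sub cF').pow 2)
    have key := integral_mono i0 (((i1.const_mul 3).fadd (i2.const_mul (3 * Λ ^ 2))).fadd
      (i3.const_mul 3)) fun x => by
      rw [hdef]
      nlinarith [sq_nonneg ((S.lap v x - (F x ((z k).1 x) ((z k).2 x) + Λ * (u x - u₀ x))) -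
          Λ * (u x - u₀ x)),
        sq_nonneg ((S.lap v x - (F x ((z k).1 x) ((z k).2 x) + Λ * (u x - u₀ x))) - (F x ((z k).1 x) ((z k).2 x) - F x (f x) (g x))),
        sq_nonneg (Λ * (u x - u₀ x) - (F x ((z k).1 x) ((z k).2 x) - F x (f x) (g x)))]
    rw [integral_add ((i1.const_mul 3).fadd (i2.const_mul _)) (i3.const_mul 3),
      integral_add (i1.const_mul 3) (i2.const_mul _), integral_const_mul, integral_const_mul,
      integral_const_mul] at key
    have q := S.integral_pen_sub_sq hF hL hFl (hz k) (z' := (f, g)) ⟨hf, hg⟩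
    have nf : ∫ x, ((z k).1 x - f x) ^ 2 ∂S.vol ≤ ε' := by
      have : 0 ≤ ∫ x, (S.grad f x - S.grad (z k).1 x) ⬝ᵥ (S.grad f x - S.grad (z k).1 x) ∂S.vol :=
        integral_nonneg fun x => Finset.sum_nonneg fun _ _ => mul_self_nonneg _
      simp only [← sub_sq_comm (f _) ((z k).1 _)]
      linarith
    have ng : ∫ x, ((z k).2 x - g x) ^ 2 ∂S.vol ≤ ε' := by
      have : 0 ≤ ∫ x, (S.grad g x - S.grad (z k).2 x) ⬝ᵥ (S.grad g x - S.grad (z k).2 x) ∂S.vol :=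
        integral_nonneg fun x => Finset.sum_nonneg fun _ _ => mul_self_nonneg _
      simp only [← sub_sq_comm (g _) ((z k).2 _)]
      linarith
    have q2 := q.trans (mul_le_mul_of_nonneg_left (add_le_add nf ng) (by positivity))
    have h4 : ε' * (8 * (1 + 4 * L ^ 2)) ≤ ε :=
      (le_div_iff₀ (by positivity)).1 (min_le_right _ _)
    have h5 : Λ * δ = ε / 24 := by rw [hδdef]; field_simp
    have h6 := mul_le_mul_of_nonneg_left hd (show 0 ≤ 6 * Λ by positivity)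
    linarith
  have hn1 : 0 ≤ ∫ x, ((z k).1 x - w.1 x) ^ 2 ∂S.vol := integral_nonneg fun _ => sq_nonneg _
  have hn2 : 0 ≤ ∫ x, ((z k).2 x - w.2 x) ^ 2 ∂S.vol := integral_nonneg fun _ => sq_nonneg _
  exact ⟨hres f (h₁ k) P.Ψ₁ _ _ cz1 cw1 hf P.cont₁ P.lip₁ (fun x => rfl)
      (le_trans (by nlinarith) hdist) hf2,
    hres g (h₂ k) P.Ψ₂ _ _ cz2 cw2 hg P.cont₂ P.lip₂ (fun x => rfl)
      (le_trans (by nlinarith) hdist) hg2⟩

end ScalarGeom

end

end Vale.Agent.P211.Analytic
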