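import Mathlib
import Vale.Agent.P211.Analytic.NearMin
import Vale.Agent.P211.Analytic.Level

/-!
P211, module D (note 1326): the penalised potential.  Both variables feel `2 s (1 - s^3)`, clipped
between their lower barrier and `2`, less the softening `soft` inside the level, a linear restoring
force of strength `K` below the barrier, and a soft penalty of strength `β` once the continued
constraint `qC f + qC g` exceeds two.
-/

open MeasureTheory

namespace Vale.Agent.P211.Analytic

noncomputable section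

/-- The derivative of the soft penalty. -/
def ramp (s : ℝ) : ℝ := max 0 (min s 1)

/-- The soft penalty. -/
def huber (s : ℝ) : ℝ := ∫ t in (0 : ℝ)..s, ramp t

/-- The reaction term. -/
def react (s : ℝ) : ℝ := 2 * s * (1 - s ^ 3)

/-- The force of one variable with barrier `b`. -/
def force (K b t : ℝ) : ℝ := react (max b (min t 2)) - K * max (b - t) 0

/-- A primitive of a function bounded by `C` is `C`-Lipschitz. -/
lemma abs_primitive_sub_le {f : ℝ → ℝ} (hf : Continuous f) {C : ℝ} (hC : ∀ t, |f t| ≤ C)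
    (s s' : ℝ) : |(∫ t in (0 : ℝ)..s, f t) - ∫ t in (0 : ℝ)..s', f t| ≤ C * |s - s'| := by
  rw [intervalIntegral.integral_interval_sub_left (hf.intervalIntegrable _ _)
    (hf.intervalIntegrable _ _)]
  exact intervalIntegral.norm_integral_le_of_norm_le_const (f := f) (C := C) fun t _ => hC t

lemma qC₁_lip (s s' : ℝ) : |qC₁ s - qC₁ s'| ≤ 18 * |s - s'| :=
  (abs_primitive_sub_le continuous_qC₂
    (fun t => by rw [abs_of_nonneg (qC₂_bound t).1]; exact (qC₂_bound t).2) s s').trans
    (mul_le_mul_of_nonneg_right (by norm_num) (abs_nonneg _))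

lemma qC_lip (s s' : ℝ) : |qC s - qC s'| ≤ 108 * |s - s'| :=
  (abs_primitive_sub_le continuous_qC₁
    (fun t => by rw [abs_of_nonneg (qC₁_bound t).1]; exact (qC₁_bound t).2) s s').trans
    (mul_le_mul_of_nonneg_right (by norm_num) (abs_nonneg _))

lemma continuous_ramp : Continuous ramp := by unfold ramp; fun_prop

lemma ramp_bound (s : ℝ) : 0 ≤ ramp s ∧ ramp s ≤ 1 :=
  ⟨le_max_left _ _, max_le zero_le_one (min_le_right _ _)⟩

lemma ramp_lip (s s' : ℝ) : |ramp s - ramp s'| ≤ |s - s'| := by
  have h1 := abs_max_sub_max_le_abs (min s 1) (min s' 1) 0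
  have h2 := abs_min_sub_min_le_max s 1 s' 1
  simp only [ramp, max_comm (0 : ℝ)]
  refine h1.trans (h2.trans ?_)
  simp

lemma hasDerivAt_huber (s : ℝ) : HasDerivAt huber (ramp s) s :=
  (continuous_ramp.integral_hasStrictDerivAt 0 s).hasDerivAt

lemma continuous_huber : Continuous huber :=
  continuous_iff_continuousAt.2 fun s => (hasDerivAt_huber s).continuousAt

lemma continuous_force₂ (K : ℝ) : Continuous fun p : ℝ × ℝ => force K p.1 p.2 := by
  unfold force react; fun_prop

lemma continuous_force (K b : ℝ) : Continuous (force K b) := by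
  unfold force react; fun_prop

lemma react_lip {a b : ℝ} (ha : a ∈ Set.Icc (0 : ℝ) 2) (hb : b ∈ Set.Icc (0 : ℝ) 2) :
    |react a - react b| ≤ 66 * |a - b| := by
  have e : react a - react b = 2 * (1 - (a + b) * (a ^ 2 + b ^ 2)) * (a - b) := by
    unfold react; ring
  rw [e, abs_mul]
  refine mul_le_mul_of_nonneg_right ?_ (abs_nonneg _)
  obtain ⟨a0, a2⟩ := ha
  obtain ⟨b0, b2⟩ := hb
  have h1 : 0 ≤ (a + b) * (a ^ 2 + b ^ 2) := by positivity
  have h2 : (a + b) * (a ^ 2 + b ^ 2) ≤ 4 * 8 :=
    mul_le_mul (by linarith) (by nlinarith) (by positivity) (by norm_num)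
  rw [abs_le]; constructor <;> linarith

lemma force_lip {K b : ℝ} (hK : 0 ≤ K) (hb : b ∈ Set.Icc (0 : ℝ) 2) (t t' : ℝ) :
    |force K b t - force K b t'| ≤ (66 + K) * |t - t'| := by
  have hm : ∀ r, max b (min r 2) ∈ Set.Icc (0 : ℝ) 2 := fun r =>
    ⟨hb.1.trans (le_max_left _ _), max_le hb.2 (min_le_right _ _)⟩
  have h0 : |max b (min t 2) - max b (min t' 2)| ≤ |t - t'| := by
    rw [max_comm b, max_comm b]
    refine (abs_max_sub_max_le_abs _ _ _).trans ((abs_min_sub_min_le_max t 2 t' 2).trans ?_)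
    simp
  have h1 := (react_lip (hm t) (hm t')).trans (mul_le_mul_of_nonneg_left h0 (by norm_num))
  have h2 : |K * max (b - t) 0 - K * max (b - t') 0| ≤ K * |t - t'| := by
    rw [← mul_sub, abs_mul, abs_of_nonneg hK]
    refine mul_le_mul_of_nonneg_left ((abs_max_sub_max_le_abs _ _ _).trans_eq ?_) hK
    rw [sub_sub_sub_cancel_left, abs_sub_comm]
  rw [show force K b t - force K b t' = (react (max b (min t 2)) - react (max b (min t' 2))) -
    (K * max (b - t) 0 - K * max (b - t') 0) by unfold force; ring]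
  linarith [abs_sub (react (max b (min t 2)) - react (max b (min t' 2)))
    (K * max (b - t) 0 - K * max (b - t') 0)]

lemma force_push {K b t : ℝ} (hK : 2 ≤ K) (hb : b ∈ Set.Icc (0 : ℝ) 2) :
    (t ≤ 0 → force K b t ≤ 0) ∧ (2 ≤ t → force K b t = -28) := by
  refine ⟨fun ht => ?_, fun ht => ?_⟩
  · have h1 : max b (min t 2) = b := max_eq_left ((min_le_left _ _).trans (ht.trans hb.1))
    have h2 : max (b - t) 0 = b - t := max_eq_left (by linarith [hb.1])
    simp only [force, h1, h2, react]
    have : 0 ≤ b ^ 4 := by positivity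
    nlinarith [hb.1]
  · have h1 : max b (min t 2) = 2 := by rw [min_eq_right ht, max_eq_right hb.2]
    have h2 : max (b - t) 0 = 0 := max_eq_right (by linarith [hb.2])
    simp only [force, h1, h2, react]
    norm_num

/-- The partial force in the first variable. -/
def totalForce (K β b s t : ℝ) : ℝ :=
  force K b s + β / 3 * qC₁ s * ramp (qC s + qC t - 2) - soft s t

lemma soft_lip (s t s' t' : ℝ) : |soft s t - soft s' t'| ≤ 2000 * (|s - s'| + |t - t'|) := by
  obtain ⟨c0, c1⟩ := cSoft_mem
  set L := max (2 - qC s - qC t) 0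
  set L' := max (2 - qC s' - qC t') 0
  set d := |s - s'| + |t - t'|
  have hm : ∀ u v : ℝ, 0 ≤ max (2 - qC u - qC v) 0 ∧ max (2 - qC u - qC v) 0 ≤ 2 := fun u v =>
    ⟨le_max_right _ _, max_le (by linarith [qC_nonneg u, qC_nonneg v]) zero_le_two⟩
  have he : |eC s - eC s'| ≤ 6 * d := by
    rw [eC, eC, ← sub_div, abs_div, abs_of_pos (three_pos : (0 : ℝ) < 3),
      div_le_iff₀ (three_pos : (0 : ℝ) < 3)]
    linarith [qC₁_lip s s', abs_nonneg (t - t')]
  have hL : |L - L'| ≤ 108 * d := by
    refine (abs_max_sub_max_le_abs _ _ _).trans ?_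
    rw [show 2 - qC s - qC t - (2 - qC s' - qC t') = (qC s' - qC s) + (qC t' - qC t) by ring]
    linarith [abs_add_le (qC s' - qC s) (qC t' - qC t), qC_lip s' s, qC_lip t' t, abs_sub_comm s s',
      abs_sub_comm t t']
  have hd : 0 ≤ d := by positivity
  have h1 : |(eC s - eC s') * L ^ 2| ≤ 6 * d * 4 := by
    rw [abs_mul, abs_of_nonneg (sq_nonneg L)]
    exact mul_le_mul he (by nlinarith [hm s t]) (sq_nonneg _) (by positivity)
  have h2 : |eC s' * ((L - L') * (L + L'))| ≤ 9 * (108 * d * 4) := by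
    rw [abs_mul, abs_of_nonneg (eC_bound s').1, abs_mul]
    exact mul_le_mul (eC_bound s').2.1 (mul_le_mul hL (abs_le.2 ⟨by linarith [hm s t, hm s' t'],
      by linarith [hm s t, hm s' t']⟩) (abs_nonneg _) (by positivity)) (by positivity) (by norm_num)
  rw [show soft s t - soft s' t' =
      Cert.cSoft * ((eC s - eC s') * L ^ 2 + eC s' * ((L - L') * (L + L'))) by
    simp only [soft, L, L']; ring, abs_mul, abs_of_nonneg c0]
  refine (mul_le_mul c1 ((abs_add_le _ _).trans (add_le_add h1 h2)) (abs_nonneg _)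
    (by norm_num)).trans ?_
  linarith

lemma totalForce_lip {K β b : ℝ} (hK : 0 ≤ K) (hβ : 0 ≤ β) (hb : b ∈ Set.Icc (0 : ℝ) 2)
    (s t s' t' : ℝ) : |totalForce K β b s t - totalForce K β b s' t'| ≤
      (2066 + K + 3894 * β) * (|s - s'| + |t - t'|) := by
  have h1 := force_lip hK hb s s'
  set r := ramp (qC s + qC t - 2)
  set r' := ramp (qC s' + qC t' - 2)
  have hr : |r - r'| ≤ 108 * (|s - s'| + |t - t'|) := by
    refine (ramp_lip _ _).trans ?_
    rw [show qC s + qC t - 2 - (qC s' + qC t' - 2) =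
      (qC s - qC s') + (qC t - qC t') by ring]
    linarith [abs_add_le (qC s - qC s') (qC t - qC t'), qC_lip s s', qC_lip t t']
  have hq : |qC₁ s * r - qC₁ s' * r'| ≤ 11682 * (|s - s'| + |t - t'|) := by
    rw [show qC₁ s * r - qC₁ s' * r' = (qC₁ s - qC₁ s') * r + qC₁ s' * (r - r') by ring]
    refine (abs_add_le _ _).trans ?_
    rw [abs_mul, abs_mul, abs_of_nonneg (ramp_bound _).1, abs_of_nonneg (qC₁_bound s').1]
    nlinarith [mul_le_mul (qC₁_lip s s') (ramp_bound (qC s + qC t - 2)).2
      (ramp_bound _).1 (by positivity), mul_le_mul ((qC₁_bound s').2.trans (show (27 : ℝ) ≤ 108 by norm_num)) hr (abs_nonneg _)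
      (by norm_num), abs_nonneg (t - t'), abs_nonneg (s - s')]
  rw [show totalForce K β b s t - totalForce K β b s' t' =
    (force K b s - force K b s') + β / 3 * (qC₁ s * r - qC₁ s' * r') - (soft s t - soft s' t') by
      simp only [totalForce, r, r']; ring]
  refine (abs_sub _ _).trans ?_
  refine (add_le_add (abs_add_le _ _) (soft_lip s t s' t')).trans ?_
  rw [abs_mul, abs_of_nonneg (by positivity : 0 ≤ β / 3)]
  nlinarith [mul_le_mul_of_nonneg_left hq (show 0 ≤ β / 3 by positivity),
    mul_nonneg (show 0 ≤ 66 + K by positivity) (abs_nonneg (t - t'))]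

lemma totalForce_push {K β b s t : ℝ} (hK : 2 ≤ K) (hβ : 12000 ≤ β)
    (hb : b ∈ Set.Icc (0 : ℝ) 2) :
    (s ≤ 0 → totalForce K β b s t ≤ 0) ∧ (2 ≤ s → 0 ≤ totalForce K β b s t) := by
  refine ⟨fun hs => ?_, fun hs => ?_⟩
  · simpa [totalForce, soft, eC, qC₁_of_nonpos hs] using (force_push hK hb).1 hs
  · have h8 : 4 ≤ qC s := four_le_qC_two.trans (monotone_qC hs)
    have h12 : 3 / 200 ≤ qC₁ s := by
      have h := (eC_ge_of_qC_gt (show 1 / 1000 < qC s by linarith)).1
      unfold eC at h
      linarith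
    have hr : ramp (qC s + qC t - 2) = 1 := by
      rw [ramp, min_eq_right (by linarith [qC_nonneg t]), max_eq_right zero_le_one]
    rw [totalForce, (force_push hK hb).2 hs, hr,
      soft_of_level (show 2 ≤ qC s + qC t by linarith [qC_nonneg t])]
    nlinarith

variable {X : Type*} [TopologicalSpace X]

/-- The penalised potential over two barriers. -/
def penalty (lo₁ lo₂ : X → ℝ) (h₁ : Continuous lo₁) (h₂ : Continuous lo₂)
    (hb₁ : ∀ x, lo₁ x ∈ Set.Icc (0 : ℝ) 2) (hb₂ : ∀ x, lo₂ x ∈ Set.Icc (0 : ℝ) 2)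
    {K β : ℝ} (hK : 2 ≤ K) (hβ : 12000 ≤ β) : Pen X where
  Ψ x s t := (∫ r in (0 : ℝ)..s, force K (lo₁ x) r) + (∫ r in (0 : ℝ)..t, force K (lo₂ x) r) +
    β / 3 * huber (qC s + qC t - 2) + Cert.cSoft / 9 * max (2 - qC s - qC t) 0 ^ 3
  Ψ₁ x s t := totalForce K β (lo₁ x) s t
  Ψ₂ x s t := totalForce K β (lo₂ x) t s
  Lp := 2066 + K + 3894 * β
  M := 2
  M_nonneg := zero_le_two
  Lp_nonneg := by positivity
  cont := by
    have hp : ∀ lo : X → ℝ, Continuous lo →
        Continuous fun q : X × ℝ => ∫ r in (0 : ℝ)..q.2, force K (lo q.1) r := fun lo hlo =>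
      intervalIntegral.continuous_parametric_intervalIntegral_of_continuous
        (f := fun q : X × ℝ => force K (lo q.1)) (s := fun q => q.2)
        ((continuous_force₂ K).comp (((hlo.comp continuous_fst).comp continuous_fst).prodMk
          continuous_snd)) continuous_snd
    refine Continuous.add (Continuous.add (Continuous.add ?_ ?_) ?_) ?_
    · exact (hp lo₁ h₁).comp (continuous_fst.prodMk (continuous_fst.comp continuous_snd))
    · exact (hp lo₂ h₂).comp (continuous_fst.prodMk (continuous_snd.comp continuous_snd))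
    · exact (continuous_huber.comp (((continuous_qC.comp (continuous_fst.comp continuous_snd)).add
        (continuous_qC.comp (continuous_snd.comp continuous_snd))).sub continuous_const)).const_mul _
    · have := continuous_qC; fun_prop
  cont₁ := by
    have := continuous_qC; have := continuous_qC₁; have := continuous_ramp
    unfold totalForce
    exact (((continuous_force₂ K).comp ((h₁.comp continuous_fst).prodMk
      (continuous_fst.comp continuous_snd))).add (by fun_prop)).sub
      (continuous_soft.comp continuous_snd)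
  cont₂ := by
    have := continuous_qC; have := continuous_qC₁; have := continuous_ramp
    unfold totalForce
    exact (((continuous_force₂ K).comp ((h₂.comp continuous_fst).prodMk
      (continuous_snd.comp continuous_snd))).add (by fun_prop)).sub
      (continuous_soft.comp (continuous_swap.comp continuous_snd))
  deriv₁ x s t := by
    have h := ((continuous_force K (lo₁ x)).integral_hasStrictDerivAt 0 s).hasDerivAt
    have h' := ((hasDerivAt_huber (qC s + qC t - 2)).comp s
      (((hasDerivAt_qC s).add_const (qC t)).sub_const 2)).const_mul (β / 3)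
    have h'' := ((hasDerivAt_pos_pow (n := 3) (by norm_num) 0 (2 - qC s - qC t)).comp s
      (((hasDerivAt_qC s).const_sub 2).sub_const (qC t))).const_mul (Cert.cSoft / 9)
    simp only [sub_zero] at h''
    refine HasDerivAt.congr_deriv (((h.add_const _).add h').add h'') ?_
    simp only [totalForce, soft, eC, Nat.cast_ofNat, Nat.add_one_sub_one]; ring
  deriv₂ x s t := by
    have h := ((continuous_force K (lo₂ x)).integral_hasStrictDerivAt 0 t).hasDerivAt
    have h' := ((hasDerivAt_huber (qC s + qC t - 2)).comp t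
      (((hasDerivAt_qC t).const_add (qC s)).sub_const 2)).const_mul (β / 3)
    have h'' := ((hasDerivAt_pos_pow (n := 3) (by norm_num) 0 (2 - qC s - qC t)).comp t
      ((hasDerivAt_qC t).const_sub (2 - qC s))).const_mul (Cert.cSoft / 9)
    simp only [sub_zero] at h''
    refine HasDerivAt.congr_deriv (((h.const_add _).add h').add h'') ?_
    simp only [totalForce, soft, eC, add_comm (qC t) (qC s), sub_right_comm (2 : ℝ) (qC t),
      Nat.cast_ofNat, Nat.add_one_sub_one]; ring
  lip₁ x s t s' t' := totalForce_lip (by linarith) (by linarith) (hb₁ x) s t s' t'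
  lip₂ x s t s' t' := by
    rw [add_comm |s - s'|]
    exact totalForce_lip (by linarith) (by linarith) (hb₂ x) t s t' s'
  push₁ x s t := totalForce_push hK hβ (hb₁ x)
  push₂ x s t := totalForce_push hK hβ (hb₂ x)

/-- The almost solution of the penalised system. -/
theorem ScalarGeom.exists_penalised [MeasurableSpace X] [CompactSpace X] [BorelSpace X]
    (S : ScalarGeom X) (lo₁ lo₂ : X → ℝ) (h₁ : Continuous lo₁) (h₂ : Continuous lo₂)
    (hb₁ : ∀ x, lo₁ x ∈ Set.Icc (0 : ℝ) 2) (hb₂ : ∀ x, lo₂ x ∈ Set.Icc (0 : ℝ) 2)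
    {K β : ℝ} (hK : 2 ≤ K) (hβ : 12000 ≤ β) {ε : ℝ} (hε : 0 < ε) :
    ∃ f g : X → ℝ, S.Smooth f ∧ S.Smooth g ∧
      (∀ x, f x ∈ Set.Icc (-ε) (2 + ε) ∧ g x ∈ Set.Icc (-ε) (2 + ε)) ∧
      (∫ x, (S.lap f x - totalForce K β (lo₁ x) (f x) (g x)) ^ 2 ∂S.vol) < ε ∧
      (∫ x, (S.lap g x - totalForce K β (lo₂ x) (g x) (f x)) ^ 2 ∂S.vol) < ε :=
  S.exists_almost_solution (penalty lo₁ lo₂ h₁ h₂ hb₁ hb₂ hK hβ) ε hε

end

end Vale.Agent.P211.Analytic
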