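import Mathlib
import Vale.Agent.P211.Analytic.Penalty

/-!
P211, module E (note 1326): the data of an almost solution of the penalised system, the smooth
cut-offs used as test functions, and their pointwise bounds.
-/

open MeasureTheory
open scoped ContDiff

namespace Vale.Agent.P211.Analytic

noncomputable section

/-- A smooth convex majorant of the positive part. -/
def smPos (δ s : ℝ) : ℝ := (s + √(s ^ 2 + δ ^ 2)) / 2

lemma contDiff_smPos {δ : ℝ} (hδ : δ ≠ 0) : ContDiff ℝ ∞ (smPos δ) := by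
  unfold smPos
  exact (contDiff_id.add (ContDiff.sqrt (by fun_prop) fun s => by positivity)).div_const 2

lemma smPos_bounds {δ : ℝ} (hδ : 0 ≤ δ) (s : ℝ) :
    max s 0 ≤ smPos δ s ∧ smPos δ s ≤ max s 0 + δ := by
  have h1 : |s| ≤ √(s ^ 2 + δ ^ 2) := Real.abs_le_sqrt (by nlinarith)
  have h2 : √(s ^ 2 + δ ^ 2) ≤ |s| + δ := by
    rw [Real.sqrt_le_left (by positivity)]
    nlinarith [abs_nonneg s, sq_abs s, mul_nonneg (abs_nonneg s) hδ]
  have h3 : s + |s| = 2 * max s 0 := by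
    rcases le_total s 0 with h | h
    · rw [abs_of_nonpos h, max_eq_right h]; ring
    · rw [abs_of_nonneg h, max_eq_left h]; ring
  unfold smPos
  constructor <;> linarith

lemma smPos_deriv {δ : ℝ} (hδ : δ ≠ 0) (s : ℝ) :
    0 ≤ deriv (smPos δ) s ∧ deriv (smPos δ) s ≤ 1 := by
  have hp : 0 < s ^ 2 + δ ^ 2 := by positivity
  have h := (((hasDerivAt_id' s).fun_add
    ((((hasDerivAt_id' s).fun_pow 2).add_const (δ ^ 2)).sqrt hp.ne'))).div_const 2
  rw [show smPos δ = fun y => (y + √(y ^ 2 + δ ^ 2)) / 2 from rfl, h.deriv]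
  set q := √(s ^ 2 + δ ^ 2)
  have hq : 0 < q := Real.sqrt_pos.2 hp
  have h1 := abs_le.1 (Real.abs_le_sqrt (show s ^ 2 ≤ s ^ 2 + δ ^ 2 by nlinarith))
  simp only [Nat.cast_ofNat, Nat.add_one_sub_one, pow_one, mul_one]
  rw [mul_div_mul_left _ _ (two_ne_zero : (2 : ℝ) ≠ 0)]
  have h2 : -1 ≤ s / q := by rw [le_div_iff₀ hq]; linarith [h1.1]
  have h3 : s / q ≤ 1 := (div_le_one hq).2 h1.2
  constructor <;> linarith

/-- A smooth substitute for the ramp, for a given accuracy. -/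
lemma exists_smRamp {δ : ℝ} (hδ : 0 < δ) :
    ∃ θ : ℝ → ℝ, ContDiff ℝ ∞ θ ∧ (∀ s, 0 ≤ deriv θ s ∧ deriv θ s ≤ 1) ∧
      ∀ s, |θ s - ramp s| ≤ δ := by
  obtain ⟨θ, h1, h2, hid, hr, -, hside⟩ := exists_clip zero_le_one hδ
  refine ⟨θ, h1, h2, fun s => ?_⟩
  rcases le_or_gt s 0 with h | h
  · rw [show ramp s = 0 from max_eq_left ((min_le_left _ _).trans h), sub_zero, abs_le]
    exact ⟨by linarith [(hr s).1], ((hside s).1 h).2.trans hδ.le⟩
  rcases le_or_gt 1 s with h' | h'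
  · rw [show ramp s = 1 by rw [ramp, min_eq_right h', max_eq_right zero_le_one], abs_le]
    exact ⟨by linarith [((hside s).2 h').1], by linarith [(hr s).2]⟩
  · rw [hid s ⟨h.le, h'.le⟩, ramp, min_eq_left h'.le, max_eq_right h.le, sub_self, abs_zero]
    exact hδ.le

lemma abs_react_le {s : ℝ} (hs : s ∈ Set.Icc (0 : ℝ) 2) : |react s| ≤ 28 := by
  obtain ⟨h0, h2⟩ := hs
  have h3 : 0 ≤ s ^ 3 := by positivity
  have h4 : s ^ 3 ≤ 2 ^ 3 := pow_le_pow_left₀ h0 h2 3
  rw [abs_le, react]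
  constructor <;> nlinarith [mul_nonneg h0 h3]

variable {X : Type*} [TopologicalSpace X] [MeasurableSpace X]

/-- The bound below for the derivative of the constraint in the unknown that is off its barrier. -/
def room0 : ℝ := 1 / 200

lemma room0_pos : 0 < room0 := by norm_num [room0]

/-- An almost solution over two barriers. -/
structure Approx (S : ScalarGeom X) where
  /-- The two functions and the two barriers. -/
  (f g l₁ l₂ : X → ℝ)
  /-- The parameters: stiffness, penalty, barrier defect, band. -/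
  (K β e ε : ℝ)
  smooth_f : S.Smooth f
  smooth_g : S.Smooth g
  smooth_l₁ : S.Smooth l₁
  smooth_l₂ : S.Smooth l₂
  band : ∀ x, f x ∈ Set.Icc (-ε) (2 + ε) ∧ g x ∈ Set.Icc (-ε) (2 + ε)
  band_l : ∀ x, l₁ x ∈ Set.Icc (0 : ℝ) 2 ∧ l₂ x ∈ Set.Icc (0 : ℝ) 2
  sub₁ : ∀ x, react (l₁ x) - e ≤ S.lap l₁ x
  sub₂ : ∀ x, react (l₂ x) - e ≤ S.lap l₂ x
  room : ∀ x, l₁ x ^ 3 + l₂ x ^ 3 ≤ 2
  hK : 2 ≤ K
  hβ : 12000 ≤ β
  he : 0 ≤ e
  hε : ε ∈ Set.Ioc (0 : ℝ) (1 / 4)
  res₁ : ∫ x, (S.lap f x - totalForce K β (l₁ x) (f x) (g x)) ^ 2 ∂S.vol ≤ ε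
  res₂ : ∫ x, (S.lap g x - totalForce K β (l₂ x) (g x) (f x)) ^ 2 ∂S.vol ≤ ε

namespace Approx

variable {S : ScalarGeom X} (A : Approx S)

/-- The other order of the two functions. -/
def symm : Approx S where
  f := A.g
  g := A.f
  l₁ := A.l₂
  l₂ := A.l₁
  K := A.K
  β := A.β
  e := A.e
  ε := A.ε
  smooth_f := A.smooth_g
  smooth_g := A.smooth_f
  smooth_l₁ := A.smooth_l₂
  smooth_l₂ := A.smooth_l₁
  band x := (A.band x).symm
  band_l x := (A.band_l x).symm
  sub₁ := A.sub₂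
  sub₂ := A.sub₁
  room x := (add_comm _ _).trans_le (A.room x)
  hK := A.hK
  hβ := A.hβ
  he := A.he
  hε := A.hε
  res₁ := A.res₂
  res₂ := A.res₁

/-- The residual of the first equation. -/
def res (x : X) : ℝ := S.lap A.f x - totalForce A.K A.β (A.l₁ x) (A.f x) (A.g x)

/-- The penalty force `φ`. -/
def phi (x : X) : ℝ := A.β * ramp (qC (A.f x) + qC (A.g x) - 2)

/-- How far the first function is below its barrier. -/
def below (x : X) : ℝ := max (A.l₁ x - A.f x) 0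

/-- The part of the restoring force not balanced by the penalty. -/
def excess (x : X) : ℝ := max (A.K * below A x - phi A x * eC (A.f x)) 0

/-- The smooth form of the constraint. -/
def level (x : X) : ℝ := qS A.ε (A.f x) + qS A.ε (A.g x) - 2

lemma phi_symm : A.symm.phi = A.phi := by
  funext x
  simp [phi, symm, add_comm]

lemma res_eq (x : X) : S.lap A.f x =
    react (max (A.l₁ x) (min (A.f x) 2)) - soft (A.f x) (A.g x) - A.K * A.below x +
      A.phi x * eC (A.f x) + A.res x := by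
  simp only [res, below, phi, totalForce, force, eC]
  ring

lemma hK0 : 0 ≤ A.K := by linarith [A.hK]

lemma hβ0 : 0 ≤ A.β := by linarith [A.hβ]

lemma phi_bounds (x : X) : 0 ≤ A.phi x ∧ A.phi x ≤ A.β :=
  ⟨mul_nonneg A.hβ0 (ramp_bound _).1, mul_le_of_le_one_right A.hβ0 (ramp_bound _).2⟩

lemma below_bounds (x : X) : 0 ≤ A.below x ∧ A.below x ≤ 3 :=
  ⟨le_max_right _ _, max_le (by linarith [(A.band_l x).1.2, (A.band x).1.1, A.hε.2]) (by norm_num)⟩

lemma abs_f_le (x : X) : |A.f x| ≤ 9 / 4 :=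
  abs_le.2 ⟨by linarith [(A.band x).1.1, A.hε.2], by linarith [(A.band x).1.2, A.hε.2]⟩

lemma abs_g_le (x : X) : |A.g x| ≤ 9 / 4 := A.symm.abs_f_le x

lemma clip_mem (x : X) : max (A.l₁ x) (min (A.f x) 2) ∈ Set.Icc (0 : ℝ) 2 :=
  ⟨(A.band_l x).1.1.trans (le_max_left _ _), max_le (A.band_l x).1.2 (min_le_right _ _)⟩

lemma band₃ (x : X) : A.f x ∈ Set.Icc (-1 : ℝ) 3 ∧ A.g x ∈ Set.Icc (-1 : ℝ) 3 := by
  obtain ⟨⟨a, b⟩, c, d⟩ := A.band x
  have := A.hε.2
  exact ⟨⟨by linarith, by linarith⟩, ⟨by linarith, by linarith⟩⟩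

/-- The smooth substitute on the band. -/
lemma qS_near (x : X) : |qS A.ε (A.f x) - qC (A.f x)| ≤ A.ε ∧
    (eC (A.f x) ≤ eS A.ε (A.f x) ∧ eS A.ε (A.f x) ≤ eC (A.f x) + A.ε) ∧
    eC₁ (A.f x) ≤ eS₁ A.ε (A.f x) ∧ eS₁ A.ε (A.f x) ≤ eC₁ (A.f x) + A.ε :=
  qS_spec A.hε.1 (A.band₃ x).1

/-- The two forms of the constraint. -/
lemma level_near (x : X) : |A.level x - (qC (A.f x) + qC (A.g x) - 2)| ≤ 2 * A.ε := by
  have h1 := abs_le.1 (A.qS_near x).1
  have h2 := abs_le.1 (A.symm.qS_near x).1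
  simp only [show A.symm.f = A.g from rfl, show A.symm.ε = A.ε from rfl] at h2
  rw [level, abs_le]
  constructor <;> linarith

lemma eC_f_le (x : X) : eC (A.f x) ≤ 7 := (eC_bound _).2.2.1 (abs_le.1 (A.abs_f_le x)).2

/-- A smooth substitute for `φ` and for `φ e`. -/
lemma exists_smPhi :
    ∃ θ : ℝ → ℝ, ContDiff ℝ ∞ θ ∧ (∀ s, 0 ≤ deriv θ s ∧ deriv θ s ≤ 1) ∧
      (∀ s, -A.ε ≤ θ s ∧ θ s ≤ 1 + A.ε) ∧
      ∀ x, |A.β * θ (A.level x) - A.phi x| ≤ 3 * A.β * A.ε ∧
        |A.β * θ (A.level x) * eS A.ε (A.f x) - A.phi x * eC (A.f x)| ≤ 26 * A.β * A.ε := by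
  obtain ⟨hε0, hε4⟩ := A.hε
  obtain ⟨θ, h1, h2, h3⟩ := exists_smRamp hε0
  refine ⟨θ, h1, h2, fun s => ⟨by linarith [(abs_le.1 (h3 s)).1, (ramp_bound s).1],
    by linarith [(abs_le.1 (h3 s)).2, (ramp_bound s).2]⟩, fun x => ?_⟩
  have d1 : |θ (A.level x) - ramp (qC (A.f x) + qC (A.g x) - 2)| ≤ 3 * A.ε := by
    refine (abs_sub_le _ (ramp (A.level x)) _).trans ?_
    linarith [h3 (A.level x), A.level_near x, ramp_lip (A.level x) (qC (A.f x) + qC (A.g x) - 2)]
  have d2 : |A.β * θ (A.level x) - A.phi x| ≤ 3 * A.β * A.ε := by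
    rw [phi, ← mul_sub, abs_mul, abs_of_nonneg A.hβ0]
    nlinarith [mul_le_mul_of_nonneg_left d1 A.hβ0]
  refine ⟨d2, ?_⟩
  obtain ⟨-, ⟨e0, e1⟩, -⟩ := A.qS_near x
  have h7 := A.eC_f_le x
  have h0 := (eC_bound (A.f x)).1
  rw [show A.β * θ (A.level x) * eS A.ε (A.f x) - A.phi x * eC (A.f x) =
    (A.β * θ (A.level x) - A.phi x) * eS A.ε (A.f x) +
      A.phi x * (eS A.ε (A.f x) - eC (A.f x)) by ring]
  refine (abs_add_le _ _).trans ?_
  rw [abs_mul, abs_mul, abs_of_nonneg (A.phi_bounds x).1, abs_of_nonneg (h0.trans e0),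
    abs_of_nonneg (sub_nonneg.2 e0)]
  nlinarith [mul_le_mul d2 (show eS A.ε (A.f x) ≤ 29 / 4 by linarith) (h0.trans e0)
    (by positivity [A.hβ0]), mul_le_mul (A.phi_bounds x).2 (show eS A.ε (A.f x) - eC (A.f x) ≤ A.ε
      by linarith) (sub_nonneg.2 e0) A.hβ0, mul_nonneg A.hβ0 hε0.le]

section Continuity

lemma continuous_l₁ : Continuous A.l₁ := S.continuous_of_smooth A.smooth_l₁

lemma continuous_f : Continuous A.f := S.continuous_of_smooth A.smooth_f

lemma continuous_g : Continuous A.g := S.continuous_of_smooth A.smooth_g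

lemma continuous_phi : Continuous A.phi :=
  continuous_const.mul (continuous_ramp.comp
    (((continuous_qC.comp A.continuous_f).add (continuous_qC.comp A.continuous_g)).sub
      continuous_const))

lemma continuous_below : Continuous A.below :=
  (A.continuous_l₁.sub A.continuous_f).max continuous_const

lemma continuous_excess : Continuous A.excess :=
  ((continuous_const.mul A.continuous_below).sub
    (A.continuous_phi.mul (continuous_eC.comp A.continuous_f))).max continuous_const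

lemma continuous_level : Continuous A.level :=
  (((contDiff_qS _).continuous.comp A.continuous_f).add
    ((contDiff_qS _).continuous.comp A.continuous_g)).sub continuous_const

lemma continuous_res : Continuous A.res := by
  unfold res totalForce force react soft eC
  have := S.continuous_of_smooth (S.smooth_trace A.smooth_f)
  have := A.continuous_f
  have := A.continuous_g
  have := A.continuous_l₁
  have := continuous_qC; have := continuous_qC₁; have := continuous_ramp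
  unfold ScalarGeom.lap
  fun_prop

end Continuity

end Approx

end

end Vale.Agent.P211.Analytic
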