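import Mathlib
import Vale.Agent.P211.Analytic.Approx

/-!
P211, module E (note 1326), integral bounds for an almost solution: the defect below the barrier,
the unbalanced restoring force, the penalty force above a level depending only on the room, the
energy uniformly in that room, and the energy in a thin layer around the constraint.
-/

open MeasureTheory
open scoped ContDiff

namespace Vale.Agent.P211.Analytic

noncomputable section

variable {X : Type*} [TopologicalSpace X] [MeasurableSpace X]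
  {S : ScalarGeom X}

section
variable [CompactSpace X] [BorelSpace X]

/-- Absorbing the linear term of a quadratic bound. -/
lemma sq_integral_le (S : ScalarGeom X) {u D : X → ℝ} (hu : Continuous u) (hD : Continuous D)
    {c : ℝ} (h : ∫ x, u x ^ 2 ∂S.vol ≤ (∫ x, u x * D x ∂S.vol) + c) :
    ∫ x, u x ^ 2 ∂S.vol ≤ (∫ x, D x ^ 2 ∂S.vol) + 2 * c := by
  have i1 := S.integrable (f := fun x => u x ^ 2) (hu.pow 2)
  have i2 := S.integrable (f := fun x => D x ^ 2) (hD.pow 2)
  have i3 := S.integrable (f := fun x => u x * D x) (hu.mul hD)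
  have key := integral_mono (i3.const_mul 2) (i1.fadd i2) fun x => by
    nlinarith [sq_nonneg (u x - D x)]
  rw [integral_const_mul, integral_add i1 i2] at key
  linarith

end

namespace Approx

variable (A : Approx S)

/-- The energy density of both functions. -/
def energyDensity (x : X) : ℝ := S.ip A.f A.f x + S.ip A.g A.g x

/-- The error entering the bound on the penalty force. -/
def err (x : X) : ℝ :=
  22 * (A.excess x + A.symm.excess x + |A.res x| + |A.symm.res x|)

lemma energyDensity_nonneg (x : X) : 0 ≤ A.energyDensity x :=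
  add_nonneg (S.ip_self_nonneg _ _) (S.ip_self_nonneg _ _)

lemma err_nonneg (x : X) : 0 ≤ A.err x := by
  have : 0 ≤ A.excess x := le_max_right _ _
  have : 0 ≤ A.symm.excess x := le_max_right _ _
  unfold err
  positivity

lemma excess_le (x : X) : A.excess x ≤ A.K * A.below x :=
  max_le (sub_le_self _ (mul_nonneg (A.phi_bounds x).1 (eC_bound _).1))
    (mul_nonneg A.hK0 (A.below_bounds x).1)

lemma smooth_below : S.Smooth fun x => A.l₁ x - A.f x := S.smooth_sub A.smooth_l₁ A.smooth_f

lemma smooth_level : S.Smooth A.level := by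
  have hf := S.smooth_comp₁ A.smooth_f (contDiff_qS A.ε)
  have hg := S.smooth_comp₁ A.smooth_g (contDiff_qS A.ε)
  have h := S.smooth_sub (S.smooth_lin hf hg 1 1) (S.smooth_const 2)
  unfold level
  simpa using h

lemma grad_level (x : X) : S.grad A.level x =
    (3 * eS A.ε (A.f x)) • S.grad A.f x + (3 * eS A.ε (A.g x)) • S.grad A.g x := by
  have hs := contDiff_qS A.ε
  have hf := S.smooth_comp₁ A.smooth_f hs
  have hg := S.smooth_comp₁ A.smooth_g hs
  have e : A.level = fun y => (1 * qS A.ε (A.f y) + 1 * qS A.ε (A.g y)) - 2 := by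
    funext y; simp [level]
  have h3 : ∀ r, deriv (qS A.ε) r = 3 * eS A.ε r := fun r => by unfold eS; ring
  rw [e, S.grad_sub (S.smooth_lin hf hg 1 1) (S.smooth_const 2), S.grad_lin hf hg,
    S.grad_const, S.grad_comp₁ A.smooth_f hs, S.grad_comp₁ A.smooth_g hs, h3, h3]
  simp

lemma lap_level (x : X) : S.lap A.level x =
    3 * eS A.ε (A.f x) * S.lap A.f x + 3 * eS A.ε (A.g x) * S.lap A.g x +
      3 * eS₁ A.ε (A.f x) * S.ip A.f A.f x + 3 * eS₁ A.ε (A.g x) * S.ip A.g A.g x := by
  have hs := contDiff_qS A.ε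
  have hf := S.smooth_comp₁ A.smooth_f hs
  have hg := S.smooth_comp₁ A.smooth_g hs
  have e : A.level = fun y => (1 * qS A.ε (A.f y) + 1 * qS A.ε (A.g y)) - 2 := by
    funext y; simp [level]
  rw [e, S.lap_sub (S.smooth_lin hf hg 1 1) (S.smooth_const 2),
    show S.lap (fun y => 1 * qS A.ε (A.f y) + 1 * qS A.ε (A.g y)) x =
      S.lap (fun y => qS A.ε (A.f y)) x + S.lap (fun y => qS A.ε (A.g y)) x by
      simp only [ScalarGeom.lap]
      rw [S.hess_lin hf hg, Matrix.trace_add, one_smul, one_smul],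
    S.lap_comp₁ A.smooth_f hs, S.lap_comp₁ A.smooth_g hs,
    show S.lap (fun _ => (2 : ℝ)) x = 0 by simp [ScalarGeom.lap, S.hess_const]]
  simp only [eS, eS₁]
  ring

/-- The equation seen from the barrier. -/
lemma lap_below_ge (x : X) :
    (0 ≤ A.l₁ x - A.f x → A.K * A.below x - A.phi x * eC (A.f x) - A.e - |A.res x| ≤
      S.lap (fun y => A.l₁ y - A.f y) x) ∧
    -(56 + A.e + 36 * A.β + |A.res x|) ≤ S.lap (fun y => A.l₁ y - A.f y) x := by
  rw [S.lap_sub A.smooth_l₁ A.smooth_f, A.res_eq]
  have hs := A.sub₁ x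
  have hr := le_abs_self (A.res x)
  have hsoft := (soft_bound (A.f x) (A.g x)).1
  refine ⟨fun h => ?_, ?_⟩
  · rw [max_eq_left ((min_le_left _ _).trans (by linarith))]
    linarith
  · have h1 := abs_le.1 (abs_react_le (A.band_l x).1)
    have h2 := abs_le.1 (abs_react_le (A.clip_mem x))
    have h3 : A.phi x * eC (A.f x) ≤ A.β * 36 :=
      mul_le_mul (A.phi_bounds x).2 (by linarith [A.eC_f_le x])
        (eC_bound _).1 A.hβ0
    linarith [mul_nonneg A.hK0 (A.below_bounds x).1]

/-- Where the penalty acts, one of the two variables is above its barrier and off zero. -/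
lemma side_of_phi_pos {x : X} (h : 0 < A.phi x) :
    (A.below x = 0 ∧ room0 ≤ eC (A.f x)) ∨ (A.symm.below x = 0 ∧ room0 ≤ eC (A.g x)) := by
  have hpos : 2 < qC (A.f x) + qC (A.g x) := by
    by_contra hle
    rw [not_lt] at hle
    have : ramp (qC (A.f x) + qC (A.g x) - 2) = 0 :=
      max_eq_left ((min_le_left _ _).trans (by linarith))
    simp [phi, this] at h
  have key : ∀ s t a b : ℝ, 2 < qC s + qC t → 0 ≤ a → 0 ≤ b → a ^ 3 + b ^ 3 ≤ 2 → s < a →
      b ≤ t ∧ room0 ≤ eC t := by
    intro s t a b hlt ha hb hroom hsa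
    obtain ⟨h1, h2⟩ := qC_le_of_cube_le ha (by linarith [pow_nonneg hb 3])
    obtain ⟨h3, -⟩ := qC_le_of_cube_le hb (by linarith [pow_nonneg ha 3])
    have h4 := monotone_qC hsa.le
    refine ⟨?_, (eC_ge_of_qC_gt (by linarith)).1⟩
    by_contra hc
    linarith [monotone_qC (not_le.1 hc).le]
  obtain ⟨⟨a0, -⟩, b0, -⟩ := A.band_l x
  rcases lt_or_ge (A.f x) (A.l₁ x) with hf | hf
  · obtain ⟨k1, k2⟩ := key _ _ _ _ hpos a0 b0 (A.room x) hf
    exact Or.inr ⟨max_eq_right (by simp only [symm]; linarith), k2⟩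
  rcases lt_or_ge (A.g x) (A.l₂ x) with hg | hg
  · obtain ⟨-, k2⟩ := key _ _ _ _ (show 2 < qC (A.g x) + qC (A.f x) by linarith) b0 a0
      (by linarith [A.room x]) hg
    exact Or.inl ⟨max_eq_right (by linarith), k2⟩
  rcases le_or_gt (qC (A.f x)) 1 with h1 | h1
  · exact Or.inr ⟨max_eq_right (by simp only [symm]; linarith),
      (eC_ge_of_qC_gt (by linarith)).1⟩
  · exact Or.inl ⟨max_eq_right (by linarith), (eC_ge_of_qC_gt (by linarith)).1⟩

/-- The Laplacian of the constraint dominates the penalty force. -/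
lemma lap_level_ge (x : X) :
    3 * room0 ^ 2 * A.phi x - 2024 - A.err x ≤ S.lap A.level x := by
  have one : ∀ B : Approx S, -1012 - 22 * B.excess x - 22 * |B.res x| ≤
      3 * eS B.ε (B.f x) * S.lap B.f x ∧ (B.below x = 0 → room0 ≤ eC (B.f x) →
      3 * room0 ^ 2 * B.phi x - 1012 - 22 * |B.res x| ≤ 3 * eS B.ε (B.f x) * S.lap B.f x) := by
    intro B
    obtain ⟨-, ⟨e0, e1⟩, -⟩ := B.qS_near x
    have he := (eC_bound (B.f x)).1
    have hsq : 3 * eS B.ε (B.f x) ≤ 22 := by linarith [B.eC_f_le x, B.hε.2]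
    have h0 : 0 ≤ 3 * eS B.ε (B.f x) := by linarith
    have h1 := abs_le.1 (abs_react_le (B.clip_mem x))
    have h2 := (abs_le.1 (le_refl |B.res x|)).1
    have h3 : 0 ≤ B.excess x := le_max_right _ _
    have m1 := mul_le_mul_of_nonneg_right hsq (abs_nonneg (B.res x))
    have m2 := mul_le_mul_of_nonneg_left h2 h0
    have m3 := mul_le_mul_of_nonneg_left h1.1 h0
    have hsoft := soft_bound (B.f x) (B.g x)
    have m7 := mul_le_mul hsq hsoft.2 hsoft.1 (by norm_num)
    rw [B.res_eq]
    refine ⟨?_, fun hb hr => ?_⟩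
    · have h4 : B.K * B.below x - B.phi x * eC (B.f x) ≤ B.excess x := le_max_left _ _
      have m4 := mul_le_mul_of_nonneg_left h4 h0
      have m5 := mul_le_mul_of_nonneg_right hsq h3
      linarith
    · rw [hb]
      have hφ := (B.phi_bounds x).1
      have hr2 : room0 ^ 2 ≤ eS B.ε (B.f x) * eC (B.f x) := by
        rw [sq]; exact mul_le_mul (hr.trans e0) hr room0_pos.le (by linarith)
      have m6 := mul_le_mul_of_nonneg_right hr2 hφ
      linarith
  obtain ⟨f1, f2⟩ := one A
  obtain ⟨g1, g2⟩ := one A.symm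
  rw [A.phi_symm] at g2
  have hA := mul_nonneg ((eC_bound (A.f x)).2.2.2.1.trans (A.qS_near x).2.2.1)
    (S.ip_self_nonneg A.f x)
  have hB := mul_nonneg ((eC_bound (A.g x)).2.2.2.1.trans (A.symm.qS_near x).2.2.1)
    (S.ip_self_nonneg A.g x)
  have hu : 0 ≤ A.excess x := le_max_right _ _
  have hv : 0 ≤ A.symm.excess x := le_max_right _ _
  rw [A.lap_level, err]
  simp only [show A.symm.f = A.g from rfl, show A.symm.ε = A.ε from rfl] at g1 g2 hB
  have hr0 := abs_nonneg (A.res x)
  have hr0' := abs_nonneg (A.symm.res x)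
  rcases (A.phi_bounds x).1.eq_or_lt with hφ | hφ
  · rw [← hφ, mul_zero]
    linarith
  rcases A.side_of_phi_pos hφ with ⟨k1, k2⟩ | ⟨k1, k2⟩
  · have := f2 k1 k2
    linarith
  · have := g2 k1 k2
    linarith

section Integral

variable [CompactSpace X] [BorelSpace X]

omit [CompactSpace X] [BorelSpace X] in
lemma continuous_energyDensity : Continuous A.energyDensity :=
  (S.continuous_ip A.smooth_f A.smooth_f).add (S.continuous_ip A.smooth_g A.smooth_g)

omit [CompactSpace X] [BorelSpace X] in
lemma continuous_err : Continuous A.err :=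
  continuous_const.mul (((A.continuous_excess.add A.symm.continuous_excess).add
    A.continuous_res.abs).add A.symm.continuous_res.abs)

omit [CompactSpace X] [BorelSpace X] in
/-- Testing with an increasing function of a smooth function. -/
lemma integral_monotone_lap_nonpos {u : X → ℝ} (hu : S.Smooth u) {φ : ℝ → ℝ}
    (hφ : ContDiff ℝ ∞ φ) (hφ' : ∀ s, 0 ≤ deriv φ s) :
    ∫ x, φ (u x) * S.lap u x ∂S.vol ≤ 0 := by
  rw [S.integral_comp_mul_lap hu hu hφ]
  exact neg_nonpos.2 (integral_nonneg fun x => mul_nonneg (hφ' _) (S.ip_self_nonneg _ _))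

/-- The defect below the barrier. -/
theorem below_sq : ∫ x, (A.K * A.below x) ^ 2 ∂S.vol ≤
    (∫ x, (A.e + 36 * A.β + |A.res x|) ^ 2 ∂S.vol) +
      2 * (A.K * A.ε * ∫ x, (56 + A.e + 36 * A.β + |A.res x|) ∂S.vol) := by
  have hε := A.hε.1
  have cr : Continuous fun x => |A.res x| := A.continuous_res.abs
  have cb := A.continuous_below
  have iP : Integrable
      (fun x => smPos A.ε (A.l₁ x - A.f x) * S.lap (fun y => A.l₁ y - A.f y) x) S.vol :=
    S.integrable (((contDiff_smPos hε.ne').continuous.comp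
      (A.continuous_l₁.sub A.continuous_f)).mul (S.continuous_lap A.smooth_below))
  have i1 : Integrable (fun x => A.K * A.below x ^ 2) S.vol := S.integrable (by fun_prop)
  have i2 : Integrable (fun x => A.below x * (A.e + 36 * A.β + |A.res x|)) S.vol :=
    S.integrable (by fun_prop)
  have i3 : Integrable (fun x => 56 + A.e + 36 * A.β + |A.res x|) S.vol := S.integrable (by fun_prop)
  have key := integral_mono ((i1.sub' i2).sub' (i3.const_mul A.ε)) iP fun x => ?_
  · rw [integral_sub (i1.sub' i2) (i3.const_mul _), integral_sub i1 i2, integral_const_mul,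
      integral_const_mul] at key
    have h0 := integral_monotone_lap_nonpos (S := S) A.smooth_below (contDiff_smPos hε.ne')
      fun s => (smPos_deriv hε.ne' s).1
    refine sq_integral_le S (u := fun x => A.K * A.below x) (continuous_const.mul cb) (by fun_prop) ?_
    have e1 : ∫ x, (A.K * A.below x) ^ 2 ∂S.vol = A.K * (A.K * ∫ x, A.below x ^ 2 ∂S.vol) := by
      rw [← integral_const_mul, ← integral_const_mul]; congr 1; funext x; ring
    have e2 : ∫ x, A.K * A.below x * (A.e + 36 * A.β + |A.res x|) ∂S.vol =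
        A.K * ∫ x, A.below x * (A.e + 36 * A.β + |A.res x|) ∂S.vol := by
      rw [← integral_const_mul]; congr 1; funext x; ring
    rw [e1, e2]
    have := mul_le_mul_of_nonneg_left (key.trans h0) A.hK0
    linarith
  obtain ⟨p1, p2⟩ := smPos_bounds hε.le (A.l₁ x - A.f x)
  obtain ⟨q1, q2⟩ := A.lap_below_ge x
  have hD : 0 ≤ 56 + A.e + 36 * A.β + |A.res x| := by
    have := A.he; have := A.hβ0; positivity
  have hP : 0 ≤ smPos A.ε (A.l₁ x - A.f x) := (le_max_right _ _).trans p1
  show A.K * A.below x ^ 2 - A.below x * (A.e + 36 * A.β + |A.res x|) -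
    A.ε * (56 + A.e + 36 * A.β + |A.res x|) ≤ _
  rcases le_or_gt 0 (A.l₁ x - A.f x) with hw | hw
  · have h3 : A.phi x * eC (A.f x) ≤ A.β * 36 :=
      mul_le_mul (A.phi_bounds x).2 (by linarith [A.eC_f_le x])
        (eC_bound _).1 A.hβ0
    have h4 := mul_le_mul_of_nonneg_left ((show A.K * A.below x -
      (A.e + 36 * A.β + |A.res x|) ≤ _ by linarith [q1 hw]) : _ ≤
      S.lap (fun y => A.l₁ y - A.f y) x) hP
    have h5 := mul_le_mul_of_nonneg_right p1 (mul_nonneg A.hK0 (A.below_bounds x).1)
    have h6 := mul_le_mul_of_nonneg_right p2 (show 0 ≤ A.e + 36 * A.β + |A.res x| by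
      have := A.he; have := A.hβ0; positivity)
    simp only [below] at *
    nlinarith
  · have hb : A.below x = 0 := max_eq_right hw.le
    rw [max_eq_right hw.le, zero_add] at p2
    rw [hb]
    nlinarith [mul_le_mul_of_nonneg_left q2 hP, mul_le_mul_of_nonneg_right p2 hD]

/-- The test function for the unbalanced restoring force. -/
def excessTest (θ : ℝ → ℝ) (y : X) : ℝ :=
  A.K * (A.l₁ y - A.f y) + (-A.β) * (θ (A.level y) * eS A.ε (A.f y))

omit [CompactSpace X] [BorelSpace X] in
lemma excess_grad {θ : ℝ → ℝ} (hθ : ContDiff ℝ ∞ θ) (hθ' : ∀ s, 0 ≤ deriv θ s ∧ deriv θ s ≤ 1)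
    (hθ1 : ∀ s, -A.ε ≤ θ s ∧ θ s ≤ 1 + A.ε)
    (x : X) : -(deriv (smPos A.ε) (A.excessTest θ x) *
        S.ip (A.excessTest θ) (fun y => A.l₁ y - A.f y) x) ≤
      20000 * A.β ^ 2 / A.K * A.energyDensity x := by
  have hε := A.hε.1
  have hK : 0 < A.K := by linarith [A.hK]
  set w : X → ℝ := fun y => A.l₁ y - A.f y
  set z := A.excessTest θ
  have hp : S.Smooth fun y => θ (A.level y) * eS A.ε (A.f y) :=
    S.smooth_mul (S.smooth_comp₁ A.smooth_level hθ) (S.smooth_comp₁ A.smooth_f (contDiff_eS A.ε))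
  obtain ⟨d0, d1⟩ := smPos_deriv hε.ne' (z x)
  set ef := eS A.ε (A.f x)
  set eg := eS A.ε (A.g x)
  set c1 := 3 * ef * deriv θ (A.level x) * ef + θ (A.level x) * eS₁ A.ε (A.f x)
  set c2 := 3 * eg * deriv θ (A.level x) * ef
  have hg : S.grad z x = A.K • S.grad w x +
      (-A.β) • (c1 • S.grad A.f x + c2 • S.grad A.g x) := by
    show S.grad (fun y => A.K * (A.l₁ y - A.f y) + -A.β * (θ (A.level y) * eS A.ε (A.f y))) x = _
    rw [S.grad_lin A.smooth_below hp,
      S.grad_mul (S.smooth_comp₁ A.smooth_level hθ) (S.smooth_comp₁ A.smooth_f (contDiff_eS A.ε)),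
      S.grad_comp₁ A.smooth_f (contDiff_eS A.ε), deriv_eS, S.grad_comp₁ A.smooth_level hθ,
      A.grad_level]
    funext i
    simp [c1, c2, ef, eg]
    ring
  obtain ⟨-, ⟨f0, f1⟩, f2, f3⟩ := A.qS_near x
  obtain ⟨-, ⟨g0, g1⟩, -⟩ := A.symm.qS_near x
  simp only [show A.symm.f = A.g from rfl, show A.symm.ε = A.ε from rfl] at g0 g1
  have hef : 0 ≤ ef ∧ ef ≤ 29 / 4 :=
    ⟨(eC_bound _).1.trans f0, by simp only [ef]; linarith [A.eC_f_le x, A.hε.2]⟩
  have heg : 0 ≤ eg ∧ eg ≤ 29 / 4 :=
    ⟨(eC_bound _).1.trans g0, by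
      simp only [eg]; linarith [(show eC (A.g x) ≤ 7 from A.symm.eC_f_le x), A.hε.2]⟩
  have hθabs : |θ (A.level x)| ≤ 5 / 4 :=
    abs_le.2 ⟨by linarith [(hθ1 (A.level x)).1, A.hε.2], by linarith [(hθ1 (A.level x)).2, A.hε.2]⟩
  have he1 : |eS₁ A.ε (A.f x)| ≤ 13 / 4 := by
    obtain ⟨-, -, -, e0, e3⟩ := eC_bound (A.f x)
    rw [abs_le]
    constructor <;> linarith [A.hε.2]
  have hθd := hθ' (A.level x)
  have prod : ∀ u v : ℝ, 0 ≤ u → u ≤ 29 / 4 → 0 ≤ v → v ≤ 29 / 4 →
      0 ≤ 3 * u * deriv θ (A.level x) * v ∧ 3 * u * deriv θ (A.level x) * v ≤ 160 := by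
    intro u v u0 u1 v0 v1
    refine ⟨mul_nonneg (mul_nonneg (by linarith) hθd.1) v0, ?_⟩
    calc 3 * u * deriv θ (A.level x) * v ≤ 3 * (29 / 4) * 1 * (29 / 4) :=
          mul_le_mul (mul_le_mul (by linarith) hθd.2 hθd.1 (by norm_num)) v1 v0 (by norm_num)
      _ ≤ 160 := by norm_num
  have hc2 : |c2| ≤ 200 := by
    obtain ⟨p0, p1⟩ := prod eg ef heg.1 heg.2 hef.1 hef.2
    rw [abs_of_nonneg p0]
    linarith
  have hc1 : |c1| ≤ 200 := by
    obtain ⟨p0, p1⟩ := prod ef ef hef.1 hef.2 hef.1 hef.2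
    refine (abs_add_le _ _).trans ?_
    rw [abs_of_nonneg p0, abs_mul]
    nlinarith [mul_le_mul hθabs he1 (abs_nonneg _) (by norm_num)]
  have hv : ∀ i, -(deriv (smPos A.ε) (z x) *
      ((A.K * S.grad w x i + -A.β * (c1 * S.grad A.f x i + c2 * S.grad A.g x i)) *
        S.grad w x i)) ≤
      20000 * A.β ^ 2 / A.K * (S.grad A.f x i * S.grad A.f x i +
        S.grad A.g x i * S.grad A.g x i) := by
    intro i
    set a := S.grad w x i
    set u := S.grad A.f x i
    set v := S.grad A.g x i
    set b := A.β * (c1 * u + c2 * v)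
    have h1 : -((A.K * a + -A.β * (c1 * u + c2 * v)) * a) ≤ b ^ 2 / (4 * A.K) := by
      rw [le_div_iff₀ (by positivity)]
      nlinarith [sq_nonneg (2 * A.K * a - b)]
    have h2 : (c1 * u + c2 * v) ^ 2 ≤ 80000 * (u * u + v * v) := by
      have e1 := (sq_le_sq.2 (hc1.trans (le_abs_self (200 : ℝ))))
      have e2 := (sq_le_sq.2 (hc2.trans (le_abs_self (200 : ℝ))))
      nlinarith [sq_nonneg (c1 * u - c2 * v), mul_le_mul_of_nonneg_right e1 (mul_self_nonneg u),
        mul_le_mul_of_nonneg_right e2 (mul_self_nonneg v)]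
    have h3 : b ^ 2 / (4 * A.K) ≤ 20000 * A.β ^ 2 / A.K * (u * u + v * v) := by
      rw [div_le_iff₀ (by positivity)]
      calc b ^ 2 = A.β ^ 2 * (c1 * u + c2 * v) ^ 2 := by simp only [b]; ring
        _ ≤ A.β ^ 2 * (80000 * (u * u + v * v)) := mul_le_mul_of_nonneg_left h2 (sq_nonneg _)
        _ = _ := by field_simp; ring
    have h4 : 0 ≤ b ^ 2 / (4 * A.K) := by positivity
    calc -(deriv (smPos A.ε) (z x) * ((A.K * a + -A.β * (c1 * u + c2 * v)) * a))
        = deriv (smPos A.ε) (z x) * (-((A.K * a + -A.β * (c1 * u + c2 * v)) * a)) := by ring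
      _ ≤ deriv (smPos A.ε) (z x) * (b ^ 2 / (4 * A.K)) := mul_le_mul_of_nonneg_left h1 d0
      _ ≤ b ^ 2 / (4 * A.K) := mul_le_of_le_one_left h4 d1
      _ ≤ _ := h3
  simp only [ScalarGeom.ip, hg, energyDensity, dotProduct, Pi.add_apply, Pi.smul_apply,
    smul_eq_mul]
  rw [← Finset.sum_add_distrib, Finset.mul_sum, Finset.mul_sum, ← Finset.sum_neg_distrib]
  exact Finset.sum_le_sum fun i _ => hv i

omit [CompactSpace X] [BorelSpace X] in
lemma excess_pointwise {θ : ℝ → ℝ}
    (hθb : ∀ x, |A.β * θ (A.level x) * eS A.ε (A.f x) - A.phi x * eC (A.f x)| ≤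
      26 * A.β * A.ε) (x : X) :
    A.excess x ^ 2 - A.excess x * (A.e + |A.res x|) -
        27 * A.β * A.ε * (56 + 3 * A.K + 36 * A.β + A.e + |A.res x|) ≤
      smPos A.ε (A.excessTest θ x) * S.lap (fun y => A.l₁ y - A.f y) x := by
  have hε := A.hε.1
  have hK : 0 < A.K := by linarith [A.hK]
  set w : X → ℝ := fun y => A.l₁ y - A.f y
  set z := A.excessTest θ
  obtain ⟨p1, p2⟩ := smPos_bounds hε.le (z x)
  obtain ⟨q1, q2⟩ := A.lap_below_ge x
  have t2 := hθb x
  rw [abs_le] at t2
  have hzx : z x = A.K * w x - A.β * θ (A.level x) * eS A.ε (A.f x) := by simp only [z, w, excessTest]; ring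
  have hb := A.below_bounds x
  have hu0 : 0 ≤ A.excess x := le_max_right _ _
  have hφ : 0 ≤ A.phi x * eC (A.f x) :=
    mul_nonneg (A.phi_bounds x).1 (eC_bound _).1
  have hφ' : A.phi x * eC (A.f x) ≤ A.β * 36 :=
    mul_le_mul (A.phi_bounds x).2 (by linarith [A.eC_f_le x])
      (eC_bound _).1 A.hβ0
  have hres := abs_nonneg (A.res x)
  have hτ : A.ε + 26 * A.β * A.ε ≤ 27 * A.β * A.ε := by nlinarith [A.hβ]
  have hP : 0 ≤ smPos A.ε (z x) := (le_max_right _ _).trans p1
  have hD : 0 ≤ 56 + 3 * A.K + 36 * A.β + A.e + |A.res x| := by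
    have := A.he; have := A.hβ0; positivity
  set P := smPos A.ε (z x)
  set D := 56 + 3 * A.K + 36 * A.β + A.e + |A.res x|
  show A.excess x ^ 2 - A.excess x * (A.e + |A.res x|) - 27 * A.β * A.ε * D ≤ P * S.lap w x
  rcases le_or_gt 0 (w x) with hw | hw
  · set zz := A.K * A.below x - A.phi x * eC (A.f x) with hzz
    have hbw : A.below x = w x := max_eq_left hw
    have hclose : |z x - zz| ≤ 26 * A.β * A.ε := by
      rw [hzx, hzz, hbw, abs_le]; constructor <;> linarith
    have hu : A.excess x = max zz 0 := rfl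
    have hPu : |P - max zz 0| ≤ 27 * A.β * A.ε := by
      have := (abs_max_sub_max_le_abs (z x) zz 0).trans hclose
      rw [abs_le] at this ⊢
      constructor <;> linarith
    have hlap := mul_le_mul_of_nonneg_left (q1 hw) hP
    rw [abs_le] at hPu
    have hzb : |zz| ≤ 3 * A.K + 36 * A.β := by
      rw [hzz, abs_le]
      constructor <;> nlinarith [mul_le_mul_of_nonneg_left hb.2 A.hK0, mul_nonneg A.hK0 hb.1]
    have hPz : max zz 0 ^ 2 - 27 * A.β * A.ε * |zz| ≤ P * zz := by
      rcases le_total 0 zz with h | h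
      · rw [max_eq_left h, abs_of_nonneg h]
        rw [max_eq_left h] at hPu
        nlinarith [mul_le_mul_of_nonneg_right hPu.1 h]
      · rw [max_eq_right h, abs_of_nonpos h]
        rw [max_eq_right h] at hPu
        nlinarith [mul_le_mul_of_nonpos_right hPu.2 h]
    have hPe := mul_le_mul_of_nonneg_right hPu.2 (show 0 ≤ A.e + |A.res x| by linarith [A.he])
    have hz2 := mul_le_mul_of_nonneg_left hzb (show 0 ≤ 27 * A.β * A.ε by
      have := A.hβ0; positivity)
    rw [hu]
    have h56 : 0 ≤ 27 * A.β * A.ε * 56 := by have := A.hβ0; positivity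
    simp only [D]
    linarith
  · have hb0 : A.below x = 0 := max_eq_right hw.le
    have he0 : A.excess x = 0 := by
      refine max_eq_right ?_
      rw [hb0]; linarith
    have hPle : P ≤ 27 * A.β * A.ε := by
      have : max (z x) 0 ≤ 26 * A.β * A.ε := max_le (by
        rw [hzx]; linarith [mul_nonpos_of_nonneg_of_nonpos A.hK0 hw.le])
        (by have := A.hβ0; positivity)
      linarith
    rw [he0]
    nlinarith [mul_le_mul_of_nonneg_left q2 hP, mul_le_mul_of_nonneg_right hPle hD,
      mul_nonneg hP (show 0 ≤ 3 * A.K by linarith)]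

/-- The unbalanced restoring force. -/
theorem excess_sq : ∫ x, A.excess x ^ 2 ∂S.vol ≤
    (∫ x, (A.e + |A.res x|) ^ 2 ∂S.vol) +
      2 * (20000 * A.β ^ 2 / A.K * (∫ x, A.energyDensity x ∂S.vol) +
        27 * A.β * A.ε * ∫ x, (56 + 3 * A.K + 36 * A.β + A.e + |A.res x|) ∂S.vol) := by
  have hε := A.hε.1
  have hK : 0 < A.K := by linarith [A.hK]
  obtain ⟨θ, hθ, hθ', hθ1, hθb⟩ := A.exists_smPhi
  set w : X → ℝ := fun y => A.l₁ y - A.f y
  set z := A.excessTest θ
  have hp : S.Smooth fun y => θ (A.level y) * eS A.ε (A.f y) :=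
    S.smooth_mul (S.smooth_comp₁ A.smooth_level hθ) (S.smooth_comp₁ A.smooth_f (contDiff_eS A.ε))
  have hz : S.Smooth z := S.smooth_lin A.smooth_below hp _ _
  have cu := A.continuous_excess
  have cr : Continuous fun x => |A.res x| := A.continuous_res.abs
  have cE := A.continuous_energyDensity
  have iP : Integrable (fun x => smPos A.ε (z x) * S.lap w x) S.vol :=
    S.integrable (((contDiff_smPos hε.ne').continuous.comp (S.continuous_of_smooth hz)).mul
      (S.continuous_lap A.smooth_below))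
  have i1 : Integrable (fun x => A.excess x ^ 2) S.vol := S.integrable (by fun_prop)
  have i2 : Integrable (fun x => A.excess x * (A.e + |A.res x|)) S.vol := S.integrable (by fun_prop)
  have i3 : Integrable (fun x => 56 + 3 * A.K + 36 * A.β + A.e + |A.res x|) S.vol :=
    S.integrable (by fun_prop)
  -- lower bound by the equation
  have key := integral_mono ((i1.sub' i2).sub' (i3.const_mul (27 * A.β * A.ε))) iP fun x => ?_
  · -- upper bound by testing
    have iE : Integrable (fun x => A.energyDensity x) S.vol := S.integrable cE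
    have hup : ∫ x, smPos A.ε (z x) * S.lap w x ∂S.vol ≤
        20000 * A.β ^ 2 / A.K * ∫ x, A.energyDensity x ∂S.vol := by
      rw [S.integral_comp_mul_lap hz A.smooth_below (contDiff_smPos hε.ne'), ← integral_const_mul,
        ← integral_neg]
      have iI : Integrable (fun x => -(deriv (smPos A.ε) (z x) * S.ip z w x)) S.vol :=
        S.integrable ((((contDiff_infty_iff_deriv.1 (contDiff_smPos hε.ne')).2.continuous.comp
          (S.continuous_of_smooth hz)).mul (S.continuous_ip hz A.smooth_below)).neg)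
      refine integral_mono iI (iE.const_mul _) fun x => ?_
      exact A.excess_grad hθ hθ' hθ1 x
    rw [integral_sub (i1.sub' i2) (i3.const_mul _), integral_sub i1 i2, integral_const_mul] at key
    refine sq_integral_le S cu (by fun_prop) ?_
    linarith
  exact A.excess_pointwise (fun x => (hθb x).2) x

/-- The energy, with a constant that does not depend on the room. -/
theorem energy_le : ∫ x, S.ip A.f A.f x ∂S.vol ≤
    104 * S.vol.real Set.univ + 9 / 4 * (∫ x, A.excess x ∂S.vol) +
      9 / 4 * (∫ x, |A.res x| ∂S.vol) + A.ε * (3 * A.K + 36 * A.β) * S.vol.real Set.univ := by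
  have iu := S.integrable A.continuous_excess
  have ir : Integrable (fun x => |A.res x|) S.vol := S.integrable A.continuous_res.abs
  have iI : Integrable (fun x => -(A.f x * S.lap A.f x)) S.vol :=
    S.integrable (A.continuous_f.mul (S.continuous_lap A.smooth_f)).neg
  have key := integral_mono iI ((((integrable_const (104 : ℝ)).fadd (iu.const_mul (9 / 4))).fadd
    (ir.const_mul (9 / 4))).fadd (integrable_const (A.ε * (3 * A.K + 36 * A.β)))) fun x => ?_
  · rw [integral_add (((integrable_const (104 : ℝ)).fadd (iu.const_mul _)).fadd (ir.const_mul _))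
      (integrable_const _), integral_add ((integrable_const (104 : ℝ)).fadd (iu.const_mul _))
      (ir.const_mul _), integral_add (integrable_const (104 : ℝ)) (iu.const_mul _),
      integral_const_mul, integral_const_mul, integral_const, integral_const, integral_neg,
      S.integral_mul_lap A.smooth_f A.smooth_f, neg_neg] at key
    simp only [smul_eq_mul] at key
    linarith
  show -(A.f x * S.lap A.f x) ≤
    104 + 9 / 4 * A.excess x + 9 / 4 * |A.res x| + A.ε * (3 * A.K + 36 * A.β)
  rw [A.res_eq]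
  have hsoft : A.f x * soft (A.f x) (A.g x) ≤ 9 / 4 * 18 := by
    obtain ⟨s0, s1⟩ := soft_bound (A.f x) (A.g x)
    exact (mul_le_mul_of_nonneg_right (abs_le.1 (A.abs_f_le x)).2 s0).trans
      (mul_le_mul_of_nonneg_left s1 (by norm_num))
  set c := react (max (A.l₁ x) (min (A.f x) 2))
  set zz := A.K * A.below x - A.phi x * eC (A.f x) with hzz
  have hu : A.excess x = max zz 0 := rfl
  have h1 : -(A.f x * c) ≤ 63 := by
    have := mul_le_mul (A.abs_f_le x) (abs_react_le (A.clip_mem x)) (abs_nonneg _) (by norm_num)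
    linarith [neg_abs_le (A.f x * c), abs_mul (A.f x) c]
  have h2 : -(A.f x * A.res x) ≤ 9 / 4 * |A.res x| := by
    have := mul_le_mul_of_nonneg_right (A.abs_f_le x) (abs_nonneg (A.res x))
    linarith [neg_abs_le (A.f x * A.res x), abs_mul (A.f x) (A.res x)]
  have hφ' : A.phi x * eC (A.f x) ≤ A.β * 36 :=
    mul_le_mul (A.phi_bounds x).2 (by linarith [A.eC_f_le x])
      (eC_bound _).1 A.hβ0
  have h3 : A.f x * zz ≤ 9 / 4 * max zz 0 + A.ε * (3 * A.K + 36 * A.β) := by
    rcases le_total 0 zz with h | h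
    · rw [max_eq_left h]
      have := mul_le_mul_of_nonneg_right (abs_le.1 (A.abs_f_le x)).2 h
      have h0 : 0 ≤ A.ε * (3 * A.K + 36 * A.β) := by
        have := A.hβ0; have := A.hK0; have := A.hε.1; positivity
      linarith
    · rw [max_eq_right h]
      have h4 := mul_le_mul_of_nonpos_right (A.band x).1.1 h
      have h5 : -zz ≤ 3 * A.K + 36 * A.β := by
        rw [hzz]; linarith [mul_nonneg A.hK0 (A.below_bounds x).1, A.hK0]
      have h6 := mul_le_mul_of_nonneg_left h5 A.hε.1.le
      linarith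
  rw [hu]
  simp only [hzz] at h3 ⊢
  nlinarith

/-- The penalty force above a level depending only on the room. -/
theorem phi_sq {m : ℝ} (hm : 2024 ≤ 3 * room0 ^ 2 * m) :
    ∫ x, max (A.phi x - m) 0 ^ 2 ∂S.vol ≤
      (∫ x, (A.err x / (3 * room0 ^ 2)) ^ 2 ∂S.vol) +
        2 * (4 * A.β * A.ε * ((A.β + m) * S.vol.real Set.univ +
            ∫ x, A.err x / (3 * room0 ^ 2) ∂S.vol)) := by
  have hε := A.hε.1
  have hη := room0_pos
  have hm0 : 0 ≤ m := by nlinarith [sq_pos_of_pos hη]
  obtain ⟨θ, hθ, hθ', -, hθb⟩ := A.exists_smPhi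
  set T : ℝ → ℝ := fun s => smPos A.ε (A.β * θ s - m)
  have hT : ContDiff ℝ ∞ T :=
    (contDiff_smPos hε.ne').comp ((hθ.const_smul A.β).sub contDiff_const)
  have hmono : Monotone T := fun s t hst => by
    have h1 : θ s ≤ θ t :=
      monotone_of_deriv_nonneg (hθ.differentiable (by simp)) (fun r => (hθ' r).1) hst
    exact monotone_of_deriv_nonneg ((contDiff_smPos hε.ne').differentiable (by simp))
      (fun r => (smPos_deriv hε.ne' r).1)
      (sub_le_sub_right (mul_le_mul_of_nonneg_left h1 A.hβ0) m)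
  have h0 := integral_monotone_lap_nonpos (S := S) A.smooth_level hT
    fun s => hmono.deriv_nonneg
  have cp := A.continuous_phi
  have ce := A.continuous_err
  set D : X → ℝ := fun x => A.err x / (3 * room0 ^ 2)
  have cD : Continuous D := ce.div_const _
  set Φ : X → ℝ := fun x => max (A.phi x - m) 0
  have cΦ : Continuous Φ := (cp.sub continuous_const).max continuous_const
  have iP : Integrable (fun x => T (A.level x) * S.lap A.level x) S.vol :=
    S.integrable ((hT.continuous.comp A.continuous_level).mul (S.continuous_lap A.smooth_level))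
  have i1 : Integrable (fun x => Φ x ^ 2) S.vol := S.integrable (cΦ.pow 2)
  have i2 : Integrable (fun x => Φ x * D x) S.vol := S.integrable (cΦ.mul cD)
  have i3 : Integrable (fun x => (A.β + m) + D x) S.vol := S.integrable (continuous_const.add cD)
  have key := integral_mono (((i1.sub' i2).sub' (i3.const_mul (4 * A.β * A.ε))).const_mul
    (3 * room0 ^ 2)) iP fun x => ?_
  · rw [integral_const_mul] at key
    have h1 : (∫ x, (Φ x ^ 2 - Φ x * D x - 4 * A.β * A.ε * ((A.β + m) + D x)) ∂S.vol) ≤ 0 :=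
      nonpos_of_mul_nonpos_right (key.trans h0) (by positivity)
    rw [integral_sub (i1.sub' i2) (i3.const_mul _), integral_sub i1 i2, integral_const_mul,
      integral_add (integrable_const _) (S.integrable cD), integral_const,
      smul_eq_mul] at h1
    refine sq_integral_le S cΦ cD ?_
    linarith
  set P := T (A.level x)
  obtain ⟨p1, p2⟩ := smPos_bounds hε.le (A.β * θ (A.level x) - m)
  have hd : -(3 * A.β * A.ε) ≤ max (A.β * θ (A.level x) - m) 0 - max (A.phi x - m) 0 ∧
      max (A.β * θ (A.level x) - m) 0 - max (A.phi x - m) 0 ≤ 3 * A.β * A.ε :=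
    abs_le.1 ((abs_max_sub_max_le_abs (A.β * θ (A.level x) - m) (A.phi x - m) 0).trans
      ((congrArg abs (sub_sub_sub_cancel_right _ _ m)).trans_le (hθb x).1))
  have hτ : A.ε + 3 * A.β * A.ε ≤ 4 * A.β * A.ε := by nlinarith [A.hβ]
  have hP0 : 0 ≤ P := (le_max_right _ _).trans p1
  have hPu : P ≤ Φ x + 4 * A.β * A.ε := by simp only [P, T, Φ]; linarith
  have hPl : Φ x - 4 * A.β * A.ε ≤ P := by simp only [P, T, Φ]; linarith
  have hPz : Φ x ^ 2 - 4 * A.β * A.ε * (A.β + m) ≤ P * (A.phi x - m) := by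
    have hb0 : 0 ≤ 4 * A.β * A.ε := by have := A.hβ0; positivity
    rcases le_total 0 (A.phi x - m) with h | h
    · have hΦ : Φ x = A.phi x - m := max_eq_left h
      rw [hΦ] at hPl ⊢
      nlinarith [mul_le_mul_of_nonneg_right hPl h,
        mul_le_mul_of_nonneg_left (show A.phi x - m ≤ A.β + m by linarith [(A.phi_bounds x).2]) hb0]
    · have hΦ : Φ x = 0 := max_eq_right h
      rw [hΦ] at hPu ⊢
      nlinarith [mul_le_mul_of_nonpos_right hPu h,
        mul_le_mul_of_nonneg_left (show -(A.phi x - m) ≤ A.β + m by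
          linarith [(A.phi_bounds x).1, A.hβ0]) hb0]
  have hE := A.err_nonneg x
  have hlap := mul_le_mul_of_nonneg_left (A.lap_level_ge x) hP0
  have hh1 := mul_le_mul_of_nonneg_right hPu hE
  have hh3 := mul_le_mul_of_nonneg_left hPz (show 0 ≤ 3 * room0 ^ 2 by positivity)
  have hh4 := mul_nonneg hP0 (sub_nonneg.2 hm)
  have e1 : 3 * room0 ^ 2 * D x = A.err x := by simp only [D]; field_simp
  show 3 * room0 ^ 2 * (Φ x ^ 2 - Φ x * D x - 4 * A.β * A.ε * ((A.β + m) + D x)) ≤
    P * S.lap A.level x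
  rw [← e1] at hh1
  rw [← e1] at hlap
  linarith

/-- The energy of the constraint in a thin layer around it. -/
theorem layer_le {s : ℝ} (hs : 0 < s) :
    ∫ x, {y | |A.level y| < s}.indicator (fun y => S.ip A.level A.level y) x ∂S.vol ≤
      4 * s * ∫ x, (2024 + A.err x) ∂S.vol := by
  obtain ⟨θ, hθ, hθ', hid, hr, -, -⟩ := exists_clip (show -s ≤ s by linarith) hs
  have cI := S.continuous_ip A.smooth_level A.smooth_level
  have cl := S.continuous_lap A.smooth_level
  have iR : Integrable (fun x => deriv θ (A.level x) * S.ip A.level A.level x) S.vol :=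
    S.integrable (((contDiff_infty_iff_deriv.1 hθ).2.continuous.comp A.continuous_level).mul cI)
  have hmeas : MeasurableSet {y | |A.level y| < s} :=
    (isOpen_lt A.continuous_level.abs continuous_const).measurableSet
  have h1 := integral_mono ((S.integrable cI).indicator hmeas) iR fun x => ?_
  · refine h1.trans ?_
    have e := S.integral_comp_mul_lap A.smooth_level A.smooth_level hθ
    have ce := A.continuous_err
    have iD : Integrable (fun x => 2024 + A.err x) S.vol :=
      S.integrable (by fun_prop)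
    have iT : Integrable (fun x => -(θ (A.level x) * S.lap A.level x)) S.vol :=
      S.integrable ((hθ.continuous.comp A.continuous_level).mul cl).neg
    have h2 := integral_mono iT (((S.integrable cl).const_mul (2 * s)).fadd
      (iD.const_mul (4 * s))) fun x => ?_
    · rw [integral_add ((S.integrable cl).const_mul _) (iD.const_mul _), integral_const_mul,
        integral_const_mul, S.integral_lap A.smooth_level, integral_neg] at h2
      linarith
    show -(θ (A.level x) * S.lap A.level x) ≤ 2 * s * S.lap A.level x +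
      4 * s * (2024 + A.err x)
    obtain ⟨r1, r2⟩ := hr (A.level x)
    have hl := A.lap_level_ge x
    have hD : 0 ≤ 2024 + A.err x := by
      have := A.err_nonneg x; positivity
    have hφ := mul_nonneg (show 0 ≤ 3 * room0 ^ 2 by positivity) (A.phi_bounds x).1
    nlinarith [mul_le_mul_of_nonneg_left (show -(2024 + A.err x) ≤
      S.lap A.level x by linarith) (show 0 ≤ 2 * s + θ (A.level x) by linarith),
      mul_le_mul_of_nonneg_right (show 2 * s + θ (A.level x) ≤ 4 * s by linarith) hD]
  by_cases hx : |A.level x| < s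
  · rw [Set.indicator_of_mem (show x ∈ {y | |A.level y| < s} from hx)]
    have he : θ =ᶠ[nhds (A.level x)] id := by
      filter_upwards [Ioo_mem_nhds (abs_lt.1 hx).1 (abs_lt.1 hx).2] with t ht
      exact hid t ⟨ht.1.le, ht.2.le⟩
    simp [he.deriv_eq]
  · rw [Set.indicator_of_notMem (show x ∉ {y | |A.level y| < s} from hx)]
    exact mul_nonneg (hθ' _).1 (S.ip_self_nonneg _ _)

end Integral

end Approx

end

end Vale.Agent.P211.Analytic
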