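import Mathlib
import Vale.Agent.P211.Analytic.Estimates

/-!
P211, module E (note 1326), moments: weighted Bochner and testing bound every power of the energy
density, and the Hessians weighted by it, once the two Laplacians are bounded up to a square
integrable error, with a constant independent of the truncation.
-/

open MeasureTheory Matrix
open scoped ContDiff

namespace Vale.Agent.P211.Analytic

noncomputable section

/-- A smooth truncation of the identity at height `M`. -/
def trunc (M R : ℝ) : ℝ := R / √(1 + (R / M) ^ 2)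

lemma contDiff_trunc (M : ℝ) : ContDiff ℝ ∞ (trunc M) := by
  unfold trunc
  exact contDiff_id.div (ContDiff.sqrt (by fun_prop) fun R => by positivity)
    fun R => (Real.sqrt_pos.2 (by positivity)).ne'

lemma hasDerivAt_trunc (M R : ℝ) :
    HasDerivAt (trunc M) (1 / ((1 + (R / M) ^ 2) * √(1 + (R / M) ^ 2))) R := by
  have hp : 0 < 1 + (R / M) ^ 2 := by positivity
  have hq := Real.sqrt_pos.2 hp
  have hsq := Real.sq_sqrt hp.le
  refine HasDerivAt.congr_deriv ((hasDerivAt_id' R).fun_div
    (((((hasDerivAt_id' R).div_const M).fun_pow 2).const_add 1).sqrt hp.ne') hq.ne') ?_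
  simp only [Nat.cast_ofNat, Nat.add_one_sub_one, pow_one]
  set q := √(1 + (R / M) ^ 2)
  rw [show 1 + (R / M) ^ 2 = q ^ 2 from hsq.symm]
  field_simp
  rcases eq_or_ne M 0 with rfl | hM
  · simp [q]
  · have : R ^ 2 = M ^ 2 * (q ^ 2 - 1) := by
      rw [show q ^ 2 - 1 = (R / M) ^ 2 by linarith]; field_simp
    field_simp
    linarith

lemma trunc_bounds {M R : ℝ} (hM : 0 < M) (hR : 0 ≤ R) :
    0 ≤ trunc M R ∧ trunc M R ≤ R ∧ trunc M R ≤ M ∧
      0 ≤ deriv (trunc M) R ∧ deriv (trunc M) R * R ≤ trunc M R := by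
  have hp : 0 < 1 + (R / M) ^ 2 := by positivity
  have hq := Real.sqrt_pos.2 hp
  have hq1 : 1 ≤ √(1 + (R / M) ^ 2) := Real.one_le_sqrt.2 (by nlinarith [sq_nonneg (R / M)])
  have hq2 : R / M ≤ √(1 + (R / M) ^ 2) :=
    (le_abs_self _).trans (Real.abs_le_sqrt (by linarith))
  rw [(hasDerivAt_trunc M R).deriv]
  refine ⟨div_nonneg hR hq.le, div_le_self hR hq1, ?_, by positivity, ?_⟩
  · unfold trunc
    rw [div_le_iff₀ hq]
    have := mul_le_mul_of_nonneg_left hq2 hM.le
    rwa [mul_div_cancel₀ R hM.ne'] at this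
  · rw [div_mul_eq_mul_div, one_mul, trunc]
    refine div_le_div_of_nonneg_left hR hq (le_mul_of_one_le_left hq.le ?_)
    nlinarith [sq_nonneg (R / M)]

/-- The truncated power used as a weight. -/
def weight (p : ℕ) (M R : ℝ) : ℝ := trunc M R ^ p

lemma contDiff_weight (p : ℕ) (M : ℝ) : ContDiff ℝ ∞ (weight p M) := (contDiff_trunc M).pow p

lemma weight_bounds {p : ℕ} {M R : ℝ} (hM : 0 < M) (hR : 0 ≤ R) :
    0 ≤ weight p M R ∧ weight p M R ≤ R ^ p ∧ weight p M R ≤ M ^ p ∧
      0 ≤ deriv (weight p M) R ∧ deriv (weight p M) R * R ≤ p * weight p M R := by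
  obtain ⟨h0, h1, h2, h3, h4⟩ := trunc_bounds hM hR
  have hd : deriv (weight p M) R = p * trunc M R ^ (p - 1) * deriv (trunc M) R :=
    (((contDiff_trunc M).differentiable (by simp) R).hasDerivAt.fun_pow p).deriv
  refine ⟨pow_nonneg h0 p, pow_le_pow_left₀ h0 h1 p, pow_le_pow_left₀ h0 h2 p, ?_, ?_⟩
  · rw [hd]; positivity
  · rw [hd]
    rcases Nat.eq_zero_or_pos p with rfl | hp
    · simp
    calc (p : ℝ) * trunc M R ^ (p - 1) * deriv (trunc M) R * R
        = p * trunc M R ^ (p - 1) * (deriv (trunc M) R * R) := by ring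
      _ ≤ p * trunc M R ^ (p - 1) * trunc M R := mul_le_mul_of_nonneg_left h4 (by positivity)
      _ = p * weight p M R := by rw [mul_assoc, ← pow_succ, Nat.sub_add_cancel hp, weight]

variable {X : Type*} [TopologicalSpace X] [MeasurableSpace X] {S : ScalarGeom X}

/-- A matrix applied to a vector. -/
lemma mulVec_dot_le (H : Matrix (Fin 4) (Fin 4) ℝ) (v : Fin 4 → ℝ) :
    (H *ᵥ v) ⬝ᵥ (H *ᵥ v) ≤ mdot H H * (v ⬝ᵥ v) := by
  rw [mdot, Finset.sum_mul]
  conv_lhs => rw [dotProduct]
  refine Finset.sum_le_sum fun i _ => ?_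
  simpa [Matrix.mulVec, dotProduct, pow_two] using
    Finset.sum_mul_sq_le_sq_mul_sq Finset.univ (H i) v

namespace Approx

variable (A : Approx S)

/-- The squared size of both Hessians. -/
def hessDensity (x : X) : ℝ :=
  mdot (S.hess A.f x) (S.hess A.f x) + mdot (S.hess A.g x) (S.hess A.g x)

/-- Half the differential of the energy density. -/
def flux (x : X) : Fin 4 → ℝ := S.hess A.f x *ᵥ S.grad A.f x + S.hess A.g x *ᵥ S.grad A.g x

lemma smooth_energyDensity : S.Smooth A.energyDensity := by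
  have h := S.smooth_lin (S.smooth_ip A.smooth_f A.smooth_f) (S.smooth_ip A.smooth_g A.smooth_g) 1 1
  simp only [one_mul] at h
  exact h

lemma grad_energyDensity (x : X) : S.grad A.energyDensity x = (2 : ℝ) • A.flux x := by
  have e : A.energyDensity = fun y =>
      1 * (S.grad A.f y ⬝ᵥ S.grad A.f y) + 1 * (S.grad A.g y ⬝ᵥ S.grad A.g y) := by
    funext y; simp [energyDensity, ScalarGeom.ip]
  rw [e, S.grad_lin (S.smooth_ip A.smooth_f A.smooth_f) (S.smooth_ip A.smooth_g A.smooth_g),
    S.grad_ip A.smooth_f A.smooth_f, S.grad_ip A.smooth_g A.smooth_g, flux, one_smul, one_smul,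
    two_smul]
  abel

lemma hessDensity_nonneg (x : X) : 0 ≤ A.hessDensity x :=
  add_nonneg (S.mdot_self_nonneg _ _) (S.mdot_self_nonneg _ _)

lemma flux_le (x : X) : A.flux x ⬝ᵥ A.flux x ≤ 2 * A.hessDensity x * A.energyDensity x := by
  have h : ∀ a b : Fin 4 → ℝ, (a + b) ⬝ᵥ (a + b) ≤ 2 * (a ⬝ᵥ a + b ⬝ᵥ b) := fun a b => by
    simp only [dotProduct, Pi.add_apply, ← Finset.sum_add_distrib, Finset.mul_sum]
    exact Finset.sum_le_sum fun i _ => by nlinarith [sq_nonneg (a i - b i)]
  refine (h _ _).trans ?_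
  have h1 := mulVec_dot_le (S.hess A.f x) (S.grad A.f x)
  have h2 := mulVec_dot_le (S.hess A.g x) (S.grad A.g x)
  have h3 := mul_nonneg (S.mdot_self_nonneg A.f x) (S.ip_self_nonneg A.g x)
  have h4 := mul_nonneg (S.mdot_self_nonneg A.g x) (S.ip_self_nonneg A.f x)
  simp only [ScalarGeom.ip] at h3 h4
  simp only [hessDensity, energyDensity, ScalarGeom.ip]
  linarith

section Integral

variable [CompactSpace X] [BorelSpace X]

omit [CompactSpace X] [BorelSpace X] in
lemma continuous_hessDensity : Continuous A.hessDensity :=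
  (S.continuous_mdot A.smooth_f A.smooth_f).add (S.continuous_mdot A.smooth_g A.smooth_g)

/-- Weighted Bochner: the Hessians against the Laplacians. -/
theorem hess_moment (p : ℕ) {M : ℝ} (hM : 0 < M) {C : ℝ} {σ : X → ℝ} (hσc : Continuous σ)
    (hσ : ∀ x, |S.lap A.f x| ≤ C + σ x ∧ |S.lap A.g x| ≤ C + σ x) :
    (∫ x, weight p M (A.energyDensity x) * A.hessDensity x ∂S.vol) ≤
      (1 + p / 2) * (4 * C ^ 2 * (∫ x, weight p M (A.energyDensity x) ∂S.vol) +
        4 * ∫ x, weight p M (A.energyDensity x) * σ x ^ 2 ∂S.vol) := by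
  have hR := A.smooth_energyDensity
  have hτ := contDiff_weight p M
  have hτd := (contDiff_infty_iff_deriv.1 hτ).2.continuous
  have hw := S.smooth_comp₁ hR hτ
  have cR := A.continuous_energyDensity
  have cw : Continuous fun x => weight p M (A.energyDensity x) := hτ.continuous.comp cR
  have cd : Continuous fun x => deriv (weight p M) (A.energyDensity x) := hτd.comp cR
  have cH := A.continuous_hessDensity
  have cLf := S.continuous_lap A.smooth_f
  have cLg := S.continuous_lap A.smooth_g
  have cRR := S.continuous_ip hR hR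
  have cRf := S.continuous_ip hR A.smooth_f
  have cRg := S.continuous_ip hR A.smooth_g
  -- the two Bochner formulas
  have bo : ∀ {u : X → ℝ}, S.Smooth u →
      Continuous (fun x => weight p M (A.energyDensity x) * (mdot (S.hess u x) (S.hess u x) -
        S.lap u x * S.lap u x + 3 * S.ip u u x)) ∧
      (∫ x, weight p M (A.energyDensity x) * (mdot (S.hess u x) (S.hess u x) -
          S.lap u x * S.lap u x + 3 * S.ip u u x) ∂S.vol) =
        ∫ x, -(deriv (weight p M) (A.energyDensity x) * ((2 : ℝ) • A.flux x ⬝ᵥ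
          (S.hess u x *ᵥ S.grad u x - S.lap u x • S.grad u x))) ∂S.vol := by
    intro u hu
    refine ⟨cw.mul (((S.continuous_mdot hu hu).sub ((S.continuous_lap hu).mul
      (S.continuous_lap hu))).add (continuous_const.mul (S.continuous_ip hu hu))), ?_⟩
    have h := S.bochner hw hu hu
    simp only [S.grad_comp₁ hR hτ, A.grad_energyDensity, smul_dotProduct, smul_eq_mul,
      ← integral_neg] at h
    simp only [ScalarGeom.lap, ScalarGeom.ip, smul_dotProduct, smul_eq_mul]
    exact h
  have cside : ∀ {u : X → ℝ}, S.Smooth u → Continuous fun x =>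
      -(deriv (weight p M) (A.energyDensity x) * ((2 : ℝ) • A.flux x ⬝ᵥ
          (S.hess u x *ᵥ S.grad u x - S.lap u x • S.grad u x))) := fun {u} hu => by
    have e : (fun x => -(deriv (weight p M) (A.energyDensity x) * ((2 : ℝ) • A.flux x ⬝ᵥ
          (S.hess u x *ᵥ S.grad u x - S.lap u x • S.grad u x)))) = fun x =>
        -(deriv (weight p M) (A.energyDensity x) *
          (S.ip A.energyDensity (S.ip u u) x / 2 - S.lap u x * S.ip A.energyDensity u x)) := by
      funext x
      have hg : S.grad (S.ip u u) x = (2 : ℝ) • (S.hess u x *ᵥ S.grad u x) :=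
        (S.grad_ip hu hu x).trans (two_smul ℝ _).symm
      simp only [ScalarGeom.ip] at hg ⊢
      simp only [hg, A.grad_energyDensity, dotProduct_sub, dotProduct_smul, smul_eq_mul]
      ring
    rw [e]
    exact (cd.mul (((S.continuous_ip hR (S.smooth_ip hu hu)).div_const 2).sub
      ((S.continuous_lap hu).mul (S.continuous_ip hR hu)))).neg
  obtain ⟨cf1, bf⟩ := bo A.smooth_f
  obtain ⟨cg1, bg⟩ := bo A.smooth_g
  have i1 := S.integrable cf1
  have i2 := S.integrable cg1
  have i3 := S.integrable (cside A.smooth_f)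
  have i4 := S.integrable (cside A.smooth_g)
  have iH : Integrable (fun x => weight p M (A.energyDensity x) * A.hessDensity x) S.vol :=
    S.integrable (cw.mul cH)
  have iT : Integrable (fun x => weight p M (A.energyDensity x)) S.vol := S.integrable cw
  have iσ : Integrable (fun x => weight p M (A.energyDensity x) * σ x ^ 2) S.vol :=
    S.integrable (cw.mul (hσc.pow 2))
  have key := integral_mono (((iH.sub' (i1.fadd i2))).fadd (i3.fadd i4))
    (((iT.const_mul (4 * C ^ 2)).fadd (iσ.const_mul 4)).const_mul (1 + p / 2)) fun x => ?_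
  · rw [integral_add (iH.sub' (i1.fadd i2)) (i3.fadd i4), integral_sub iH (i1.fadd i2),
      integral_add i1 i2, integral_add i3 i4, integral_const_mul,
      integral_add (iT.const_mul _) (iσ.const_mul _), integral_const_mul, integral_const_mul,
      bf, bg] at key
    linarith
  obtain ⟨w0, -, -, d0, dp⟩ := weight_bounds (p := p) hM (A.energyDensity_nonneg x)
  set τ := weight p M (A.energyDensity x)
  set τ' := deriv (weight p M) (A.energyDensity x)
  set lf := S.lap A.f x
  set lg := S.lap A.g x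
  have hV : -(τ' * ((2 : ℝ) • A.flux x ⬝ᵥ (S.hess A.f x *ᵥ S.grad A.f x - lf • S.grad A.f x))) +
      -(τ' * ((2 : ℝ) • A.flux x ⬝ᵥ (S.hess A.g x *ᵥ S.grad A.g x - lg • S.grad A.g x))) ≤
      p / 2 * τ * (lf ^ 2 + lg ^ 2) := by
    set V := A.flux x with hVdef
    set W := lf • S.grad A.f x + lg • S.grad A.g x
    have e1 : ((2 : ℝ) • V ⬝ᵥ (S.hess A.f x *ᵥ S.grad A.f x - lf • S.grad A.f x)) +
        ((2 : ℝ) • V ⬝ᵥ (S.hess A.g x *ᵥ S.grad A.g x - lg • S.grad A.g x)) =
        2 * (V ⬝ᵥ V - V ⬝ᵥ W) := by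
      rw [← dotProduct_add, smul_dotProduct, smul_eq_mul, ← dotProduct_sub]
      congr 2
      simp only [V, flux, W]
      abel
    have e2 : -(2 * (V ⬝ᵥ V - V ⬝ᵥ W)) ≤ W ⬝ᵥ W / 2 := by
      simp only [dotProduct, ← Finset.sum_sub_distrib, Finset.mul_sum, Finset.sum_div,
        ← Finset.sum_neg_distrib]
      exact Finset.sum_le_sum fun i _ => by nlinarith [sq_nonneg (2 * V i - W i)]
    have e3 : W ⬝ᵥ W ≤ (lf ^ 2 + lg ^ 2) * A.energyDensity x := by
      simp only [W, energyDensity, ScalarGeom.ip, dotProduct, Pi.add_apply, Pi.smul_apply,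
        smul_eq_mul, ← Finset.sum_add_distrib, Finset.mul_sum]
      exact Finset.sum_le_sum fun i _ => by
        nlinarith [sq_nonneg (lf * S.grad A.g x i - lg * S.grad A.f x i)]
    have e4 := mul_le_mul_of_nonneg_left (e2.trans (by linarith : W ⬝ᵥ W / 2 ≤
      (lf ^ 2 + lg ^ 2) * A.energyDensity x / 2)) d0
    have e5 := mul_le_mul_of_nonneg_right dp (show 0 ≤ (lf ^ 2 + lg ^ 2) / 2 by positivity)
    have e6 := congrArg (fun r => τ' * r) e1
    simp only [mul_add] at e6
    linarith
  have hL : lf ^ 2 + lg ^ 2 ≤ 4 * C ^ 2 + 4 * σ x ^ 2 := by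
    have q1 := pow_le_pow_left₀ (abs_nonneg _) (hσ x).1 2
    have q2 := pow_le_pow_left₀ (abs_nonneg _) (hσ x).2 2
    rw [sq_abs] at q1 q2
    nlinarith [sq_nonneg (C - σ x)]
  have h3 : 0 ≤ τ * A.energyDensity x := mul_nonneg w0 (A.energyDensity_nonneg x)
  have h5 := mul_le_mul_of_nonneg_left hL (show 0 ≤ (1 + p / 2) * τ by positivity)
  simp only [hessDensity, energyDensity] at h3 ⊢
  nlinarith

/-- Testing the weighted differential: the energy density against the Hessians. -/
theorem energy_moment (p : ℕ) {M : ℝ} (hM : 0 < M) {C : ℝ} {σ : X → ℝ} (hσc : Continuous σ)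
    (hσ : ∀ x, |S.lap A.f x| ≤ C + σ x ∧ |S.lap A.g x| ≤ C + σ x) :
    (∫ x, weight p M (A.energyDensity x) * A.energyDensity x ∂S.vol) ≤
      9 / 4 * ((2 * C + 1 + 2 * p) * (∫ x, weight p M (A.energyDensity x) ∂S.vol) +
        (∫ x, weight p M (A.energyDensity x) * σ x ^ 2 ∂S.vol) +
        4 * p * ∫ x, weight p M (A.energyDensity x) * A.hessDensity x ∂S.vol) := by
  have hR := A.smooth_energyDensity
  have hτ := contDiff_weight p M
  have hw := S.smooth_comp₁ hR hτ
  have hw1 : S.Smooth fun y => A.f y * weight p M (A.energyDensity y) := S.smooth_mul A.smooth_f hw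
  have hw2 : S.Smooth fun y => A.g y * weight p M (A.energyDensity y) := S.smooth_mul A.smooth_g hw
  have cR := A.continuous_energyDensity
  have cw : Continuous fun x => weight p M (A.energyDensity x) := hτ.continuous.comp cR
  have cd : Continuous fun x => deriv (weight p M) (A.energyDensity x) :=
    (contDiff_infty_iff_deriv.1 hτ).2.continuous.comp cR
  have e1 := S.integral_mul_lap A.smooth_f hw1
  have e2 := S.integral_mul_lap A.smooth_g hw2
  have hexp : ∀ (u : X → ℝ), S.Smooth u → ∀ x,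
      S.ip (fun y => u y * weight p M (A.energyDensity y)) u x =
        weight p M (A.energyDensity x) * S.ip u u x +
          u x * deriv (weight p M) (A.energyDensity x) * (2 * (A.flux x ⬝ᵥ S.grad u x)) := by
    intro u hu x
    simp only [ScalarGeom.ip, S.grad_mul hu hw, S.grad_comp₁ hR hτ, A.grad_energyDensity,
      add_dotProduct, smul_dotProduct, smul_eq_mul]
    ring
  have iw1 := S.integrable (S.continuous_ip hw1 A.smooth_f)
  have iw2 := S.integrable (S.continuous_ip hw2 A.smooth_g)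
  have il1 : Integrable (fun x => A.f x * weight p M (A.energyDensity x) * S.lap A.f x) S.vol :=
    S.integrable ((A.continuous_f.mul cw).mul (S.continuous_lap A.smooth_f))
  have il2 : Integrable (fun x => A.g x * weight p M (A.energyDensity x) * S.lap A.g x) S.vol :=
    S.integrable ((A.continuous_g.mul cw).mul (S.continuous_lap A.smooth_g))
  have iR : Integrable (fun x => weight p M (A.energyDensity x) * A.energyDensity x) S.vol :=
    S.integrable (cw.mul cR)
  have iT : Integrable (fun x => weight p M (A.energyDensity x)) S.vol := S.integrable cw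
  have iσ : Integrable (fun x => weight p M (A.energyDensity x) * σ x ^ 2) S.vol :=
    S.integrable (cw.mul (hσc.pow 2))
  have iH : Integrable (fun x => weight p M (A.energyDensity x) * A.hessDensity x) S.vol :=
    S.integrable (cw.mul A.continuous_hessDensity)
  have key := integral_mono ((iR.sub' (iw1.fadd iw2)).sub' (il1.fadd il2))
    ((((iT.const_mul (2 * C + 1 + 2 * p)).fadd iσ).fadd (iH.const_mul (4 * p))).const_mul (9 / 4))
    fun x => ?_
  · rw [integral_sub (iR.sub' (iw1.fadd iw2)) (il1.fadd il2), integral_sub iR (iw1.fadd iw2),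
      integral_add iw1 iw2, integral_add il1 il2, integral_const_mul,
      integral_add ((iT.const_mul _).fadd iσ) (iH.const_mul _), integral_add (iT.const_mul _) iσ,
      integral_const_mul, integral_const_mul, e1, e2] at key
    linarith
  simp only [hexp _ A.smooth_f, hexp _ A.smooth_g]
  obtain ⟨w0, -, -, d0, dp⟩ := weight_bounds (p := p) hM (A.energyDensity_nonneg x)
  set τ := weight p M (A.energyDensity x)
  set τ' := deriv (weight p M) (A.energyDensity x)
  set V := A.flux x
  have one : ∀ (u : X → ℝ), |u x| ≤ 9 / 4 → |S.lap u x| ≤ C + σ x →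
      -(u x * τ' * (2 * (V ⬝ᵥ S.grad u x))) - u x * τ * S.lap u x ≤
        9 / 4 * (τ' * (V ⬝ᵥ V + S.ip u u x) + τ * (C + σ x)) := by
    intro u hu hl
    have h1 : -(2 * (u x * (V ⬝ᵥ S.grad u x))) ≤ 9 / 4 * (V ⬝ᵥ V + S.ip u u x) := by
      simp only [ScalarGeom.ip, dotProduct, ← Finset.sum_add_distrib, Finset.mul_sum,
        ← Finset.sum_neg_distrib]
      refine Finset.sum_le_sum fun i _ => ?_
      have a1 := abs_le.1 hu
      nlinarith [mul_nonneg (sub_nonneg.2 a1.2) (mul_self_nonneg (V i - S.grad u x i)),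
        mul_nonneg (show 0 ≤ u x + 9 / 4 by linarith [a1.1])
          (mul_self_nonneg (V i + S.grad u x i))]
    have h2 : -(u x * S.lap u x) ≤ 9 / 4 * (C + σ x) := by
      have := mul_le_mul hu hl (abs_nonneg _) (by norm_num)
      linarith [neg_abs_le (u x * S.lap u x), abs_mul (u x) (S.lap u x)]
    linarith [mul_le_mul_of_nonneg_left h1 d0, mul_le_mul_of_nonneg_left h2 w0]
  have of := one A.f (A.abs_f_le x) (hσ x).1
  have og := one A.g (A.abs_g_le x) (hσ x).2
  have hR0 := A.energyDensity_nonneg x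
  have k1 : τ' * (V ⬝ᵥ V) ≤ 2 * (p * τ) * A.hessDensity x := by
    have := mul_le_mul_of_nonneg_left (A.flux_le x) d0
    have := mul_le_mul_of_nonneg_right dp (A.hessDensity_nonneg x)
    linarith
  have k2 : τ * (2 * σ x) ≤ τ * (1 + σ x ^ 2) :=
    mul_le_mul_of_nonneg_left (by nlinarith [sq_nonneg (σ x - 1)]) w0
  have k3 : τ' * (S.ip A.f A.f x + S.ip A.g A.g x) ≤ p * τ := dp
  have k4 : 0 ≤ p * τ := by positivity
  simp only [energyDensity] at *
  nlinarith

/-- All moments, uniformly in the truncation. -/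
theorem moments (p : ℕ) {C : ℝ} (hC : 0 ≤ C) :
    ∃ Q : ℝ, ∀ (A : Approx S) (M : ℝ), 0 < M → ∀ σ : X → ℝ, Continuous σ →
      (∀ x, |S.lap A.f x| ≤ C + σ x ∧ |S.lap A.g x| ≤ C + σ x) →
      (∫ x, weight p M (A.energyDensity x) * A.hessDensity x ∂S.vol) +
        (∫ x, weight p M (A.energyDensity x) * A.energyDensity x ∂S.vol) ≤
        Q * (S.vol.real Set.univ + M ^ p * ∫ x, σ x ^ 2 ∂S.vol) := by
  set c₁ : ℝ := (1 + p / 2) * (4 * C ^ 2 + 4)
  set Q₁ : ℝ := c₁ + 9 / 4 * (2 * C + 2 + 2 * p + 4 * p * c₁)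
  have hc : 0 ≤ c₁ := by positivity
  have hQ : 0 < Q₁ := by positivity
  refine ⟨2 * Q₁ * ((2 * Q₁) ^ p + 1), fun A M hM σ hσc hσ => ?_⟩
  have h1 := A.hess_moment p hM hσc hσ
  have h2 := A.energy_moment p hM hσc hσ
  set τ : X → ℝ := fun x => weight p M (A.energyDensity x)
  have cR := A.continuous_energyDensity
  have cw : Continuous τ := (contDiff_weight p M).continuous.comp cR
  have hb := fun x => weight_bounds (p := p) hM (A.energyDensity_nonneg x)
  have h0 : 0 ≤ ∫ x, τ x ∂S.vol := integral_nonneg fun x => (hb x).1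
  have hsig0 : 0 ≤ ∫ x, τ x * σ x ^ 2 ∂S.vol :=
    integral_nonneg fun x => mul_nonneg (hb x).1 (sq_nonneg _)
  have hsig : ∫ x, τ x * σ x ^ 2 ∂S.vol ≤ M ^ p * ∫ x, σ x ^ 2 ∂S.vol := by
    rw [← integral_const_mul]
    exact integral_mono (S.integrable (cw.mul (hσc.pow 2)))
      ((S.integrable (hσc.pow 2)).const_mul _) fun x =>
      mul_le_mul_of_nonneg_right (hb x).2.2.1 (sq_nonneg _)
  have hT : ∫ x, τ x ∂S.vol ≤ 1 / (2 * Q₁) * (∫ x, τ x * A.energyDensity x ∂S.vol) +
      (2 * Q₁) ^ p * S.vol.real Set.univ := by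
    have i1 : Integrable (fun x => τ x * A.energyDensity x) S.vol := S.integrable (cw.mul cR)
    have key := integral_mono (S.integrable cw)
      ((i1.const_mul (1 / (2 * Q₁))).fadd (integrable_const ((2 * Q₁) ^ p))) fun x => ?_
    · rw [integral_add (i1.const_mul _) (integrable_const _), integral_const_mul, integral_const,
        smul_eq_mul] at key
      linarith
    obtain ⟨w0, wR, -, -, -⟩ := hb x
    rcases le_or_gt (A.energyDensity x) (2 * Q₁) with h | h
    · have := wR.trans (pow_le_pow_left₀ (A.energyDensity_nonneg x) h p)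
      have h' : 0 ≤ 1 / (2 * Q₁) * (τ x * A.energyDensity x) := by
        have := A.energyDensity_nonneg x
        positivity
      show τ x ≤ 1 / (2 * Q₁) * (τ x * A.energyDensity x) + (2 * Q₁) ^ p
      linarith
    · have h' : τ x ≤ 1 / (2 * Q₁) * (τ x * A.energyDensity x) := by
        rw [div_mul_eq_mul_div, one_mul, le_div_iff₀ (by positivity)]
        exact mul_le_mul_of_nonneg_left h.le w0
      show τ x ≤ 1 / (2 * Q₁) * (τ x * A.energyDensity x) + (2 * Q₁) ^ p
      linarith [pow_nonneg (show 0 ≤ 2 * Q₁ by positivity) p]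
  set H := ∫ x, τ x * A.hessDensity x ∂S.vol
  set E₀ := ∫ x, τ x * A.energyDensity x ∂S.vol
  set T := ∫ x, τ x ∂S.vol
  set G := ∫ x, τ x * σ x ^ 2 ∂S.vol
  set V := S.vol.real Set.univ
  set G' := M ^ p * ∫ x, σ x ^ 2 ∂S.vol
  have hH0 : 0 ≤ H := integral_nonneg fun x => mul_nonneg (hb x).1 (A.hessDensity_nonneg x)
  have hV0 : 0 ≤ V := measureReal_nonneg
  have hG' : 0 ≤ G' := hsig0.trans hsig
  have k0 : H ≤ c₁ * (T + G) := by
    refine h1.trans ?_
    simp only [c₁]
    nlinarith [mul_nonneg (show 0 ≤ (1 + (p : ℝ) / 2) by positivity)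
      (add_nonneg (mul_nonneg (sq_nonneg C) hsig0) h0)]
  have k1 : H + E₀ ≤ Q₁ * (T + G) := by
    have := mul_le_mul_of_nonneg_left k0 (show 0 ≤ 9 / 4 * (4 * (p : ℝ)) by positivity)
    simp only [Q₁]
    nlinarith [mul_nonneg (show 0 ≤ 2 * C + 1 + 2 * (p : ℝ) by positivity) hsig0]
  have k2 : Q₁ * T ≤ E₀ / 2 + Q₁ * (2 * Q₁) ^ p * V := by
    calc Q₁ * T ≤ Q₁ * (1 / (2 * Q₁) * E₀ + (2 * Q₁) ^ p * V) :=
          mul_le_mul_of_nonneg_left hT hQ.le
      _ = _ := by field_simp
  have k3 := mul_le_mul_of_nonneg_left hsig hQ.le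
  nlinarith [mul_nonneg hQ.le hV0, mul_nonneg (mul_nonneg hQ.le hG')
    (pow_nonneg (show 0 ≤ 2 * Q₁ by positivity) p)]

omit [CompactSpace X] [BorelSpace X] in
/-- The bound on the Laplacian needed above, for the first function. -/
lemma abs_lap_le {m : ℝ} (hm : 0 ≤ m) (x : X) :
    |S.lap A.f x| ≤ (46 + 7 * m) + (7 * max (A.phi x - m) 0 + A.excess x + |A.res x|) := by
  have hφ := A.phi_bounds x
  have hq := A.eC_f_le x
  have hq0 := (eC_bound (A.f x)).1
  have h1 : A.K * A.below x - A.phi x * eC (A.f x) ≤ A.excess x := le_max_left _ _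
  have h2 : A.phi x * eC (A.f x) ≤ 7 * max (A.phi x - m) 0 + 7 * m := by
    have := mul_le_mul_of_nonneg_left hq hφ.1
    linarith [le_max_left (A.phi x - m) 0]
  have h3 := abs_le.1 (abs_react_le (A.clip_mem x))
  have h4 := abs_le.1 (le_refl |A.res x|)
  have h5 := mul_nonneg A.hK0 (A.below_bounds x).1
  have h6 : 0 ≤ A.excess x := le_max_right _ _
  have h7 : 0 ≤ max (A.phi x - m) 0 := le_max_right _ _
  have hs := soft_bound (A.f x) (A.g x)
  rw [A.res_eq, abs_le]
  constructor <;> linarith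

omit [CompactSpace X] [BorelSpace X] in
/-- The bound on both Laplacians, with one error. -/
lemma abs_laps_le {m : ℝ} (hm : 0 ≤ m) (x : X) :
    |S.lap A.f x| ≤ (46 + 7 * m) + (7 * max (A.phi x - m) 0 +
        (A.excess x + A.symm.excess x + |A.res x| + |A.symm.res x|)) ∧
      |S.lap A.g x| ≤ (46 + 7 * m) + (7 * max (A.phi x - m) 0 +
        (A.excess x + A.symm.excess x + |A.res x| + |A.symm.res x|)) := by
  have h1 := A.abs_lap_le hm x
  have h2 := A.symm.abs_lap_le hm x
  rw [A.phi_symm] at h2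
  simp only [show A.symm.f = A.g from rfl] at h2
  have : 0 ≤ A.excess x := le_max_right _ _
  have : 0 ≤ A.symm.excess x := le_max_right _ _
  constructor <;> linarith [abs_nonneg (A.res x), abs_nonneg (A.symm.res x)]

end Integral

end Approx

end

end Vale.Agent.P211.Analytic
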