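import Mathlib
import Vale.Agent.P211.Analytic.Moments

/-!
P211, module E (note 1326), choice of parameters: over nearly subsolving barriers, for every level,
room and penalty strength, an almost solution with all error terms as small as wished and energy,
moments and layer energy bounded independently of the penalty strength and of the accuracy.
-/

open MeasureTheory
open scoped ContDiff

namespace Vale.Agent.P211.Analytic

noncomputable section

variable {X : Type*} [TopologicalSpace X] [MeasurableSpace X] {S : ScalarGeom X}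

/-- The penalty force level. -/
def capLevel : ℝ := 2024 / (3 * room0 ^ 2)

lemma capLevel_nonneg : 0 ≤ capLevel := by unfold capLevel; positivity

lemma capLevel_spec : 2024 ≤ 3 * room0 ^ 2 * capLevel := by
  have := room0_pos
  unfold capLevel
  rw [mul_div_cancel₀ _ (by positivity : 3 * room0 ^ 2 ≠ 0)]

namespace Approx

variable (A : Approx S)

/-- The error in the bound on both Laplacians. -/
def lapErr (x : X) : ℝ :=
  7 * max (A.phi x - capLevel) 0 +
    (A.excess x + A.symm.excess x + |A.res x| + |A.symm.res x|)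

lemma abs_laps_le_lapErr (x : X) :
    |S.lap A.f x| ≤ (46 + 7 * capLevel) + A.lapErr x ∧
      |S.lap A.g x| ≤ (46 + 7 * capLevel) + A.lapErr x :=
  A.abs_laps_le capLevel_nonneg x

lemma continuous_lapErr : Continuous A.lapErr :=
  (continuous_const.mul ((A.continuous_phi.sub continuous_const).max continuous_const)).add
    (((A.continuous_excess.add A.symm.continuous_excess).add A.continuous_res.abs).add
      A.symm.continuous_res.abs)

end Approx

variable [CompactSpace X] [BorelSpace X]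

/-- The mean is controlled by the mean square. -/
lemma integral_le_half (S : ScalarGeom X) {u : X → ℝ} (hu : Continuous u) {b : ℝ}
    (h : ∫ x, u x ^ 2 ∂S.vol ≤ b) : ∫ x, u x ∂S.vol ≤ (S.vol.real Set.univ + b) / 2 := by
  have i2 : Integrable (fun x => u x ^ 2) S.vol := S.integrable (hu.pow 2)
  have key := integral_mono (S.integrable hu) (((integrable_const (1 : ℝ)).fadd i2).div_const 2)
    fun x => by nlinarith [sq_nonneg (u x - 1)]
  rw [integral_div, integral_add (integrable_const (1 : ℝ)) i2, integral_const, smul_eq_mul,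
    mul_one] at key
  linarith

namespace Approx

variable (A : Approx S)

omit [CompactSpace X] [BorelSpace X] in
lemma res_sq : ∫ x, A.res x ^ 2 ∂S.vol ≤ A.ε := A.res₁

omit [CompactSpace X] [BorelSpace X] in
lemma abs_res_sq : ∫ x, |A.res x| ^ 2 ∂S.vol ≤ A.ε := by simpa [sq_abs, res] using A.res₁

lemma abs_res_le : ∫ x, |A.res x| ∂S.vol ≤ S.vol.real Set.univ + 1 := by
  have := integral_le_half S A.continuous_res.abs A.abs_res_sq
  linarith [A.hε.2, (measureReal_nonneg : 0 ≤ S.vol.real Set.univ)]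

/-- A crude bound on the restoring force. -/
lemma crude_below (h1 : A.K * A.ε ≤ 1) (he : A.e ≤ 1) :
    ∫ x, (A.K * A.below x) ^ 2 ∂S.vol ≤
      2 * (37 * A.β) ^ 2 * S.vol.real Set.univ + 2 + 2 * ((58 + 36 * A.β) * S.vol.real Set.univ + 1) := by
  have hV : 0 ≤ S.vol.real Set.univ := measureReal_nonneg
  have cr : Continuous fun x => |A.res x| := A.continuous_res.abs
  have ir : Integrable (fun x => |A.res x|) S.vol := S.integrable cr
  have ir2 : Integrable (fun x => |A.res x| ^ 2) S.vol := S.integrable (cr.pow 2)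
  have h2 : ∫ x, (A.e + 36 * A.β + |A.res x|) ^ 2 ∂S.vol ≤
      2 * (37 * A.β) ^ 2 * S.vol.real Set.univ + 2 := by
    have key := integral_mono (S.integrable (f := fun x => (A.e + 36 * A.β + |A.res x|) ^ 2)
      (by fun_prop)) ((integrable_const (2 * (37 * A.β) ^ 2)).fadd (ir2.const_mul 2)) fun x => by
        have h0 : 0 ≤ A.e + 36 * A.β := by linarith [A.he, A.hβ0]
        have := pow_le_pow_left₀ h0 (show A.e + 36 * A.β ≤ 37 * A.β by linarith [A.hβ]) 2
        nlinarith [sq_nonneg (A.e + 36 * A.β - |A.res x|)]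
    rw [integral_add (integrable_const _) (ir2.const_mul 2), integral_const, integral_const_mul,
      smul_eq_mul] at key
    linarith [A.abs_res_sq, A.hε.2]
  have h3 : ∫ x, (56 + A.e + 36 * A.β + |A.res x|) ∂S.vol ≤
      (58 + 36 * A.β) * S.vol.real Set.univ + 1 := by
    rw [integral_add (integrable_const _) ir, integral_const, smul_eq_mul]
    nlinarith [A.abs_res_le]
  have h4 : A.K * A.ε * ∫ x, (56 + A.e + 36 * A.β + |A.res x|) ∂S.vol ≤
      1 * ((58 + 36 * A.β) * S.vol.real Set.univ + 1) :=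
    mul_le_mul h1 h3 (integral_nonneg fun x => add_nonneg (by linarith [A.he, A.hβ0]) (abs_nonneg _))
      zero_le_one
  linarith [A.below_sq]

/-- The energy of both functions, from a bound on the unbalanced force. -/
lemma energy_total {b : ℝ} (hu : ∫ x, A.excess x ^ 2 ∂S.vol ≤ b)
    (hv : ∫ x, A.symm.excess x ^ 2 ∂S.vol ≤ b) (hK : A.K * A.ε ≤ 1) (hβ : A.β * A.ε ≤ 1) :
    ∫ x, A.energyDensity x ∂S.vol ≤ 294 * S.vol.real Set.univ + 5 + 9 / 4 * b := by
  have hV : 0 ≤ S.vol.real Set.univ := measureReal_nonneg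
  have one : ∀ B : Approx S, B.K = A.K → B.β = A.β → B.ε = A.ε → ∫ x, B.excess x ^ 2 ∂S.vol ≤ b →
      ∫ x, S.ip B.f B.f x ∂S.vol ≤ 147 * S.vol.real Set.univ + 5 / 2 + 9 / 8 * b := by
    intro B e1 e2 e3 hb
    have h1 := B.energy_le
    have h2 := integral_le_half S B.continuous_excess hb
    have h3 := B.abs_res_le
    have h4 : B.ε * (3 * B.K + 36 * B.β) * S.vol.real Set.univ ≤ 39 * S.vol.real Set.univ :=
      mul_le_mul_of_nonneg_right (by rw [e1, e2, e3]; linarith) hV
    linarith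
  have f := one A rfl rfl rfl hu
  have g := one A.symm rfl rfl rfl hv
  have e : ∫ x, A.energyDensity x ∂S.vol =
      (∫ x, S.ip A.f A.f x ∂S.vol) + ∫ x, S.ip A.g A.g x ∂S.vol :=
    integral_add (S.integrable (S.continuous_ip A.smooth_f A.smooth_f))
      (S.integrable (S.continuous_ip A.smooth_g A.smooth_g))
  simp only [show A.symm.f = A.g from rfl] at g
  linarith

/-- The crude bound on the energy, before the stiffness is chosen. -/
lemma crude_energy (h1 : A.K * A.ε ≤ 1) (h2 : A.β * A.ε ≤ 1) (he : A.e ≤ 1) :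
    ∫ x, A.energyDensity x ∂S.vol ≤ 294 * S.vol.real Set.univ + 5 + 9 / 4 *
      (2 * (37 * A.β) ^ 2 * S.vol.real Set.univ + 2 +
        2 * ((58 + 36 * A.β) * S.vol.real Set.univ + 1)) := by
  have hle : ∀ B : Approx S, ∫ x, B.excess x ^ 2 ∂S.vol ≤ ∫ x, (B.K * B.below x) ^ 2 ∂S.vol :=
    fun B => integral_mono (S.integrable (B.continuous_excess.pow 2))
      (S.integrable ((continuous_const.mul B.continuous_below).pow 2))
      fun x => pow_le_pow_left₀ (le_max_right _ _) (B.excess_le x) 2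
  exact A.energy_total ((hle A).trans (A.crude_below h1 he))
    ((hle A.symm).trans (A.symm.crude_below h1 he)) h1 h2

/-- The barrier defect for large stiffness. -/
lemma below_small {ν : ℝ} (hν : 0 < ν) (h1 : A.K * A.ε ≤ 1) (he : A.e ≤ 1)
    (hK : (2 * (37 * A.β) ^ 2 * S.vol.real Set.univ + 2 +
      2 * ((58 + 36 * A.β) * S.vol.real Set.univ + 1)) / ν ≤ A.K) :
    ∫ x, A.below x ^ 2 ∂S.vol ≤ ν := by
  have h := A.crude_below h1 he
  rw [div_le_iff₀ hν] at hK
  have e1 : ∫ x, (A.K * A.below x) ^ 2 ∂S.vol = A.K ^ 2 * ∫ x, A.below x ^ 2 ∂S.vol := by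
    rw [← integral_const_mul]; simp only [mul_pow]
  rw [e1] at h
  refine le_of_mul_le_mul_left ((h.trans hK).trans ?_) (pow_pos (by linarith [A.hK]) 2)
  nlinarith [mul_nonneg (sub_nonneg.2 (show 1 ≤ A.K by linarith [A.hK])) (mul_nonneg A.hK0 hν.le)]

/-- The unbalanced force for large stiffness. -/
lemma excess_small {ν : ℝ} (hν : 0 < ν) (h1 : A.K * A.ε ≤ 1) (h2 : A.β * A.ε ≤ 1) (he : A.e ≤ 1)
    (hK : 160000 * A.β ^ 2 * (294 * S.vol.real Set.univ + 5 + 9 / 4 *
      (2 * (37 * A.β) ^ 2 * S.vol.real Set.univ + 2 +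
        2 * ((58 + 36 * A.β) * S.vol.real Set.univ + 1))) / ν ≤ A.K)
    (he2 : 2 * A.e ^ 2 * S.vol.real Set.univ ≤ ν / 4)
    (hε : A.ε * (4 * (54 * A.β * ((58 + 3 * A.K + 36 * A.β) * S.vol.real Set.univ + 1) + 2)) ≤ ν) :
    ∫ x, A.excess x ^ 2 ∂S.vol ≤ ν := by
  have hE := A.crude_energy h1 h2 he
  have cr : Continuous fun x => |A.res x| := A.continuous_res.abs
  have ir : Integrable (fun x => |A.res x|) S.vol := S.integrable cr
  have ir2 : Integrable (fun x => |A.res x| ^ 2) S.vol := S.integrable (cr.pow 2)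
  have q1 : ∫ x, (A.e + |A.res x|) ^ 2 ∂S.vol ≤ ν / 4 + 2 * A.ε := by
    have key := integral_mono (S.integrable (f := fun x => (A.e + |A.res x|) ^ 2) (by fun_prop))
      ((integrable_const (2 * A.e ^ 2)).fadd (ir2.const_mul 2)) fun x => by
        nlinarith [sq_nonneg (A.e - |A.res x|)]
    rw [integral_add (integrable_const _) (ir2.const_mul 2), integral_const, integral_const_mul,
      smul_eq_mul] at key
    linarith [A.abs_res_sq]
  have hK0 : 0 < A.K := by linarith [A.hK]
  have q2 : 20000 * A.β ^ 2 / A.K * (∫ x, A.energyDensity x ∂S.vol) ≤ ν / 8 := by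
    refine (mul_le_mul_of_nonneg_left hE (by positivity)).trans ?_
    rw [div_mul_eq_mul_div, div_le_iff₀ hK0]
    rw [div_le_iff₀ hν] at hK
    linarith
  have q3 : ∫ x, (56 + 3 * A.K + 36 * A.β + A.e + |A.res x|) ∂S.vol ≤
      (58 + 3 * A.K + 36 * A.β) * S.vol.real Set.univ + 1 := by
    rw [integral_add (integrable_const _) ir, integral_const, smul_eq_mul]
    have := mul_le_mul_of_nonneg_left (show A.e ≤ 1 from he)
      (measureReal_nonneg : 0 ≤ S.vol.real Set.univ)
    nlinarith [A.abs_res_le]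
  have q4 := mul_le_mul_of_nonneg_left q3 (show 0 ≤ 54 * A.β * A.ε by
    have := A.hβ0; have := A.hε.1; positivity)
  linarith [A.excess_sq, A.hε.1]

/-- The square of the force above the level, bounded. -/
lemma phi_small {ν : ℝ} (hu : ∫ x, A.excess x ^ 2 ∂S.vol ≤ ν)
    (hv : ∫ x, A.symm.excess x ^ 2 ∂S.vol ≤ ν) (hε : A.ε ≤ ν) (hν1 : ν ≤ 1) :
    ∫ x, max (A.phi x - capLevel) 0 ^ 2 ∂S.vol ≤
      7744 * ν / (9 * room0 ^ 4) + 2 * A.ε * (4 * A.β * ((A.β + capLevel) * S.vol.real Set.univ +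
        (S.vol.real Set.univ + 7744 / (9 * room0 ^ 4)) / 2)) := by
  have hη := room0_pos
  have cu := A.continuous_excess
  have cv := A.symm.continuous_excess
  have cr := A.continuous_res
  have cs := A.symm.continuous_res
  have i1 : Integrable (fun x => A.excess x ^ 2) S.vol := S.integrable (cu.pow 2)
  have i2 : Integrable (fun x => A.symm.excess x ^ 2) S.vol := S.integrable (cv.pow 2)
  have i3 : Integrable (fun x => A.res x ^ 2) S.vol := S.integrable (cr.pow 2)
  have i4 : Integrable (fun x => A.symm.res x ^ 2) S.vol := S.integrable (cs.pow 2)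
  have h1 : ∫ x, (A.err x / (3 * room0 ^ 2)) ^ 2 ∂S.vol ≤ 7744 * ν / (9 * room0 ^ 4) := by
    have key := integral_mono (S.integrable (f := fun x => (A.err x / (3 * room0 ^ 2)) ^ 2)
      ((A.continuous_err.div_const _).pow 2))
      ((((i1.fadd i2).fadd i3).fadd i4).const_mul (1936 / (9 * room0 ^ 4))) fun x => by
        rw [show A.err x / (3 * room0 ^ 2) =
            22 / (3 * room0 ^ 2) * (A.excess x + A.symm.excess x + |A.res x| + |A.symm.res x|) by
          unfold err; ring, mul_pow]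
        have h4 : (A.excess x + A.symm.excess x + |A.res x| + |A.symm.res x|) ^ 2 ≤
            4 * (A.excess x ^ 2 + A.symm.excess x ^ 2 + A.res x ^ 2 + A.symm.res x ^ 2) := by
          nlinarith [sq_abs (A.res x), sq_abs (A.symm.res x),
            sq_nonneg (A.excess x - A.symm.excess x), sq_nonneg (A.excess x - |A.res x|),
            sq_nonneg (A.excess x - |A.symm.res x|), sq_nonneg (A.symm.excess x - |A.res x|),
            sq_nonneg (A.symm.excess x - |A.symm.res x|), sq_nonneg (|A.res x| - |A.symm.res x|)]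
        refine (mul_le_mul_of_nonneg_left h4 (sq_nonneg _)).trans_eq ?_
        field_simp
        ring
    rw [integral_const_mul, integral_add ((i1.fadd i2).fadd i3) i4, integral_add (i1.fadd i2) i3,
      integral_add i1 i2] at key
    refine key.trans ?_
    have r1 : ∫ x, A.res x ^ 2 ∂S.vol ≤ ν := A.res_sq.trans hε
    have r2 : ∫ x, A.symm.res x ^ 2 ∂S.vol ≤ ν := A.symm.res_sq.trans hε
    calc _ ≤ 1936 / (9 * room0 ^ 4) * (ν + ν + ν + ν) :=
          mul_le_mul_of_nonneg_left (by linarith) (by positivity)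
      _ = _ := by ring
  have h2 : 7744 * ν / (9 * room0 ^ 4) ≤ 7744 / (9 * room0 ^ 4) := by gcongr; linarith
  have h3 := integral_le_half S (A.continuous_err.div_const (3 * room0 ^ 2)) (h1.trans h2)
  have h4 := mul_le_mul_of_nonneg_left (mul_le_mul_of_nonneg_left
    (add_le_add (le_refl ((A.β + capLevel) * S.vol.real Set.univ)) h3)
      (show 0 ≤ 4 * A.β * A.ε by have := A.hβ0; have := A.hε.1; positivity))
    (zero_le_two : (0 : ℝ) ≤ 2)
  refine (A.phi_sq capLevel_spec).trans ?_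
  refine le_trans (add_le_add h1 h4) (le_of_eq ?_)
  field_simp

/-- The square of the error in the Laplacian bound. -/
lemma lapErr_sq {ν : ℝ} (hu : ∫ x, A.excess x ^ 2 ∂S.vol ≤ ν)
    (hv : ∫ x, A.symm.excess x ^ 2 ∂S.vol ≤ ν) (hε : A.ε ≤ ν)
    (hp : ∫ x, max (A.phi x - capLevel) 0 ^ 2 ∂S.vol ≤ ν) :
    ∫ x, A.lapErr x ^ 2 ∂S.vol ≤ 265 * ν := by
  have i0 : Integrable (fun x => max (A.phi x - capLevel) 0 ^ 2) S.vol :=
    S.integrable (((A.continuous_phi.sub continuous_const).max continuous_const).pow 2)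
  have i1 : Integrable (fun x => A.excess x ^ 2) S.vol := S.integrable (A.continuous_excess.pow 2)
  have i2 : Integrable (fun x => A.symm.excess x ^ 2) S.vol :=
    S.integrable (A.symm.continuous_excess.pow 2)
  have i3 : Integrable (fun x => A.res x ^ 2) S.vol := S.integrable (A.continuous_res.pow 2)
  have i4 : Integrable (fun x => A.symm.res x ^ 2) S.vol := S.integrable (A.symm.continuous_res.pow 2)
  have key := integral_mono (S.integrable (f := fun x => A.lapErr x ^ 2) (A.continuous_lapErr.pow 2))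
    (((((i0.const_mul 49).fadd i1).fadd i2).fadd i3).fadd i4 |>.const_mul 5) fun x => by
      simp only [lapErr]
      nlinarith [sq_abs (A.res x), sq_abs (A.symm.res x),
        sq_nonneg (7 * max (A.phi x - capLevel) 0 - A.excess x),
        sq_nonneg (7 * max (A.phi x - capLevel) 0 - A.symm.excess x),
        sq_nonneg (7 * max (A.phi x - capLevel) 0 - |A.res x|),
        sq_nonneg (7 * max (A.phi x - capLevel) 0 - |A.symm.res x|),
        sq_nonneg (A.excess x - A.symm.excess x), sq_nonneg (A.excess x - |A.res x|),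
        sq_nonneg (A.excess x - |A.symm.res x|), sq_nonneg (A.symm.excess x - |A.res x|),
        sq_nonneg (A.symm.excess x - |A.symm.res x|), sq_nonneg (|A.res x| - |A.symm.res x|)]
  rw [integral_const_mul, integral_add ((((i0.const_mul 49).fadd i1).fadd i2).fadd i3) i4,
    integral_add (((i0.const_mul 49).fadd i1).fadd i2) i3,
    integral_add ((i0.const_mul 49).fadd i1) i2, integral_add (i0.const_mul 49) i1,
    integral_const_mul] at key
  linarith [A.res_sq, A.symm.res_sq, show A.symm.ε = A.ε from rfl]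

end Approx

/-- Almost solutions with all errors small. -/
theorem exists_approx (S : ScalarGeom X) {β ν : ℝ} (hβ : 12000 ≤ β) (hν : 0 < ν) :
    ∃ e₀ > 0, ∀ (l₁ l₂ : X → ℝ) (e : ℝ), S.Smooth l₁ → S.Smooth l₂ →
      (∀ x, l₁ x ∈ Set.Icc (0 : ℝ) 2 ∧ l₂ x ∈ Set.Icc (0 : ℝ) 2) → 0 ≤ e → e ≤ e₀ →
      (∀ x, react (l₁ x) - e ≤ S.lap l₁ x) → (∀ x, react (l₂ x) - e ≤ S.lap l₂ x) →
      (∀ x, l₁ x ^ 3 + l₂ x ^ 3 ≤ 2) →
      ∃ A : Approx S, A.l₁ = l₁ ∧ A.l₂ = l₂ ∧ A.β = β ∧ A.e = e ∧ A.ε ≤ ν ∧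
        (∫ x, A.below x ^ 2 ∂S.vol) ≤ ν ∧ (∫ x, A.symm.below x ^ 2 ∂S.vol) ≤ ν ∧
        (∫ x, A.excess x ^ 2 ∂S.vol) ≤ ν ∧ (∫ x, A.symm.excess x ^ 2 ∂S.vol) ≤ ν ∧
        (∫ x, max (A.phi x - capLevel) 0 ^ 2 ∂S.vol) ≤ ν ∧
        (∫ x, A.lapErr x ^ 2 ∂S.vol) ≤ ν ∧
        (∫ x, A.energyDensity x ∂S.vol) ≤ 294 * S.vol.real Set.univ + 8 ∧
        ∀ s > 0, (∫ x, {y | |A.level y| < s}.indicator (fun y => S.ip A.level A.level y) x ∂S.vol) ≤
          4 * s * (2200 * S.vol.real Set.univ + 600) := by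
  set V := S.vol.real Set.univ
  have hV : 0 ≤ V := measureReal_nonneg
  have hη0 := room0_pos
  have hη1 : room0 ≤ 1 := by norm_num [room0]
  -- the target for the unbalanced force
  set ν₁ := min 1 ν / 265 with hν₁def
  have hν₁ : 0 < ν₁ := by positivity
  set ν₂ := ν₁ * room0 ^ 4 / 7744 with hν₂def
  have hν₂ : 0 < ν₂ := by positivity
  have hν₂₁ : ν₂ ≤ ν₁ := by
    rw [hν₂def, div_le_iff₀ (by norm_num)]
    nlinarith [pow_le_one₀ (n := 4) hη0.le hη1]
  have hν₁1 : ν₁ ≤ 1 := by
    rw [hν₁def, div_le_iff₀ (by norm_num)]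
    linarith [min_le_left (1 : ℝ) ν]
  set B₁ := 2 * (37 * β) ^ 2 * V + 2 + 2 * ((58 + 36 * β) * V + 1)
  set B₂ := 294 * V + 5 + 9 / 4 * B₁
  have hβ0 : 0 < β := by linarith
  have hB₁ : 0 ≤ B₁ := by positivity
  have hB₂ : 0 ≤ B₂ := by positivity
  set K := 2 + 160000 * β ^ 2 * B₂ / ν₂ + B₁ / ν₁ with hKdef
  have hK : 2 ≤ K := by
    rw [hKdef]
    have : 0 ≤ 160000 * β ^ 2 * B₂ / ν₂ := by positivity
    have : 0 ≤ B₁ / ν₁ := by positivity
    linarith
  have hK0 : 0 < K := by linarith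
  set D₁ := 54 * β * ((58 + 3 * K + 36 * β) * V + 1) + 2
  set m := capLevel
  set D₂ := 2 * (4 * β * ((β + m) * V + (V + 7744 / (9 * room0 ^ 4)) / 2)) + 1
  have hD₁ : 0 < D₁ := by positivity
  have hm : 0 ≤ m := capLevel_nonneg
  have hD₂ : 0 < D₂ := by positivity
  set ε := min (min (1 / 4) (min ν₂ (1 / K))) (min (min (1 / β) (ν₂ / (4 * D₁))) (ν₁ / (2 * D₂)))
    with hεdef
  have hε : 0 < ε := by
    simp only [hεdef, lt_min_iff]
    refine ⟨⟨by norm_num, hν₂, by positivity⟩, ⟨by positivity, by positivity⟩, by positivity⟩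
  refine ⟨min 1 (√(ν₂ / (8 * (V + 1)))), lt_min one_pos (Real.sqrt_pos.2 (by positivity)),
    fun l₁ l₂ e hl₁ hl₂ hb he he₀ hs₁ hs₂ hroom => ?_⟩
  have he1 : e ≤ 1 := he₀.trans (min_le_left _ _)
  have he2 : 2 * e ^ 2 * V ≤ ν₂ / 4 := by
    have h := pow_le_pow_left₀ he (he₀.trans (min_le_right _ _)) 2
    rw [Real.sq_sqrt (by positivity)] at h
    have h' := mul_le_mul_of_nonneg_right h (show 0 ≤ 8 * (V + 1) by positivity)
    rw [div_mul_cancel₀ _ (by positivity)] at h'
    nlinarith [sq_nonneg e]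
  obtain ⟨f, g, hf, hg, hband, r1, r2⟩ := S.exists_penalised l₁ l₂ (S.continuous_of_smooth hl₁)
    (S.continuous_of_smooth hl₂) (fun x => (hb x).1) (fun x => (hb x).2) hK hβ hε
  let A : Approx S :=
    { f := f, g := g, l₁ := l₁, l₂ := l₂, K := K, β := β, e := e, ε := ε
      smooth_f := hf, smooth_g := hg, smooth_l₁ := hl₁, smooth_l₂ := hl₂, band := hband
      band_l := hb, sub₁ := hs₁, sub₂ := hs₂, room := hroom, hK := hK, hβ := hβ, he := he
      hε := ⟨hε, (min_le_left _ _).trans (min_le_left _ _)⟩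
      res₁ := r1.le, res₂ := r2.le }
  have hεν : ε ≤ ν₂ := (min_le_left _ _).trans ((min_le_right _ _).trans (min_le_left _ _))
  have hKε : K * ε ≤ 1 := by
    have h : ε ≤ 1 / K := (min_le_left _ _).trans ((min_le_right _ _).trans (min_le_right _ _))
    rw [le_div_iff₀ hK0] at h
    linarith
  have hβε : β * ε ≤ 1 := by
    have h : ε ≤ 1 / β := (min_le_right _ _).trans ((min_le_left _ _).trans (min_le_left _ _))
    rw [le_div_iff₀ hβ0] at h
    linarith
  have hεD₁ : ε * (4 * D₁) ≤ ν₂ :=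
    (le_div_iff₀ (by positivity)).1
      ((min_le_right _ _).trans ((min_le_left _ _).trans (min_le_right _ _)))
  have hεD₂ : ε * (2 * D₂) ≤ ν₁ :=
    (le_div_iff₀ (by positivity)).1 ((min_le_right _ _).trans (min_le_right _ _))
  have hB : 160000 * β ^ 2 * B₂ / ν₂ ≤ K ∧ B₁ / ν₁ ≤ K := by
    have : 0 ≤ 160000 * β ^ 2 * B₂ / ν₂ := by positivity
    have : 0 ≤ B₁ / ν₁ := by positivity
    constructor <;> rw [hKdef] <;> linarith
  have hcrude : ∀ B : Approx S, B.K = K → B.β = β → B.e = e → B.ε = ε →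
      ∫ x, B.below x ^ 2 ∂S.vol ≤ ν₁ ∧ ∫ x, B.excess x ^ 2 ∂S.vol ≤ ν₂ := by
    intro B eK eβ ee eε
    exact ⟨B.below_small hν₁ (by rw [eK, eε]; exact hKε) (by rw [ee]; exact he1)
        (by rw [eK, eβ]; exact hB.2),
      B.excess_small hν₂ (by rw [eK, eε]; exact hKε) (by rw [eβ, eε]; exact hβε)
        (by rw [ee]; exact he1) (by rw [eK, eβ]; exact hB.1) (by rw [ee]; exact he2)
        (by rw [eK, eβ, eε]; exact hεD₁)⟩
  obtain ⟨b1, u1⟩ := hcrude A rfl rfl rfl rfl
  obtain ⟨b2, u2⟩ := hcrude A.symm rfl rfl rfl rfl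
  have hE := A.energy_total u1 u2 hKε hβε
  have hE8 : ∫ x, A.energyDensity x ∂S.vol ≤ 294 * V + 8 := by linarith
  have hΦ : ∫ x, max (A.phi x - capLevel) 0 ^ 2 ∂S.vol ≤ ν₁ := by
    refine (A.phi_small u1 u2 hεν (hν₂₁.trans hν₁1)).trans ?_
    have e1 : 7744 * ν₂ / (9 * room0 ^ 4) = ν₁ / 9 := by rw [hν₂def]; field_simp
    show 7744 * ν₂ / (9 * room0 ^ 4) + 2 * ε * (4 * β * ((β + m) * V +
      (V + 7744 / (9 * room0 ^ 4)) / 2)) ≤ ν₁
    rw [e1]
    have e2 : 2 * ε * (4 * β * ((β + m) * V + (V + 7744 / (9 * room0 ^ 4)) / 2)) = ε * D₂ - ε := by simp only [D₂]; ring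
    rw [e2]
    linarith
  have hν₁ν : ν₁ * 265 ≤ ν := by
    rw [hν₁def, div_mul_cancel₀ _ (by norm_num)]
    exact min_le_right _ _
  refine ⟨A, rfl, rfl, rfl, rfl, show ε ≤ ν by linarith, by linarith, by linarith, by linarith,
    by linarith, by linarith, (A.lapErr_sq (u1.trans hν₂₁) (u2.trans hν₂₁)
      (hεν.trans hν₂₁) hΦ).trans (by linarith), hE8, fun s hs => ?_⟩
  refine (A.layer_le hs).trans (mul_le_mul_of_nonneg_left ?_ (by linarith))
  have ie : Integrable (fun x => A.err x) S.vol := S.integrable A.continuous_err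
  rw [integral_add (integrable_const _) ie, integral_const, smul_eq_mul]
  have i1 := S.integrable A.continuous_excess
  have i2 := S.integrable A.symm.continuous_excess
  have i3 := S.integrable A.continuous_res.abs
  have i4 := S.integrable A.symm.continuous_res.abs
  have herr : ∫ x, A.err x ∂S.vol ≤ 22 * (4 * V + 4) := by
    have key : ∫ x, A.err x ∂S.vol = 22 * ((∫ x, A.excess x ∂S.vol) + (∫ x, A.symm.excess x ∂S.vol) +
        (∫ x, |A.res x| ∂S.vol) + ∫ x, |A.symm.res x| ∂S.vol) := by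
      rw [← integral_add i1 i2, ← integral_add (i1.fadd i2) i3,
        ← integral_add ((i1.fadd i2).fadd i3) i4, ← integral_const_mul]
      rfl
    rw [key]
    linarith [integral_le_half S A.continuous_excess u1,
      integral_le_half S A.symm.continuous_excess u2, A.abs_res_le, A.symm.abs_res_le]
  show V * 2024 + (∫ x, A.err x ∂S.vol) ≤ 2200 * V + 600
  linarith

end

end Vale.Agent.P211.Analytic
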