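import Mathlib
import Vale.Agent.P211.Analytic.Passage.Main
import Vale.Agent.P211.Analytic.EndGame.Main
import Vale.Agent.P211.Cert.Pointwise

/-!
P211, module F: a pointwise certificate for `qLev` on its interval is one for the continued
constraint function of the analysis, and a family of them gives the scalar dichotomy.
-/

open MeasureTheory Matrix
open scoped ContDiff

namespace Vale.Agent.P211.Analytic

noncomputable section

open Vale.Agent.P211

lemma mem_of_level {s t : ℝ} (hs : 0 ≤ s) (ht : 0 ≤ t) (h : qC s + qC t ≤ 2) :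
    (s ∈ Set.Icc (0 : ℝ) (127 / 100) ∧ t ∈ Set.Icc (0 : ℝ) (127 / 100)) ∧
      Cert.qLev s + Cert.qLev t ≤ 2 := by
  have s1 := le_of_qC_le (show qC s ≤ 2 by linarith [qC_nonneg t])
  have t1 := le_of_qC_le (show qC t ≤ 2 by linarith [qC_nonneg s])
  refine ⟨⟨⟨hs, s1⟩, ht, t1⟩, ?_⟩
  rwa [← qC_eq ⟨hs, s1⟩, ← qC_eq ⟨ht, t1⟩]

/-- On the range the softened reaction of the certificate is that of the analysis. -/
lemma softened_eq {s t : ℝ} (hs : s ∈ Set.Icc (0 : ℝ) (127 / 100))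
    (ht : t ∈ Set.Icc (0 : ℝ) (127 / 100)) :
    Cert.reactT s t = 2 * s * (1 - s ^ 3) - soft s t := by
  rw [Cert.reactT, soft, qC_eq hs, qC_eq ht, (eC_eq hs).1, Cert.reactF]

/-- The interface certificate in the format of the passage. -/
def Cert.ofPointwise {G : ℝ → ℝ → ℝ} {κ Φ : ℝ} (C : Cert.Pointwise G κ Φ) :
    Analytic.Cert G κ Φ where
  P := C.P
  k := C.k
  k₁ := C.k₁
  smooth_P := C.smooth_P
  smooth_k := C.smooth_k
  smooth_k₁ := C.smooth_k₁
  growth := C.growth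
  nonneg_k s t a b hs ht h := by
    obtain ⟨⟨ms, mt⟩, -⟩ := mem_of_level hs ht h.le
    exact C.nonneg_k s t a b ⟨hs, ms.2.trans (by norm_num)⟩ ⟨ht, mt.2.trans (by norm_num)⟩
      (by rwa [← qC_eq ms, ← qC_eq mt])
  interior s t a b H K hH hK hs ht h e1 e2 := by
    obtain ⟨⟨ms, mt⟩, h'⟩ := mem_of_level hs ht h
    exact C.interior s t a b H K hH hK ⟨hs, ms.2.trans (by norm_num)⟩
      ⟨ht, mt.2.trans (by norm_num)⟩ h' (e1.trans (softened_eq ms mt).symm)
      (e2.trans (softened_eq mt ms).symm)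
  contact φ s t p p' a b H K hH hK hs ht h hv hφ hF e1 e2 := by
    obtain ⟨⟨ms, mt⟩, -⟩ := mem_of_level hs ht h.le
    have key := C.contact φ s t p p' a b H K hH hK ⟨hs, ms.2.trans (by norm_num)⟩
      ⟨ht, mt.2.trans (by norm_num)⟩ (by rwa [← qC_eq ms, ← qC_eq mt])
      (by rwa [← (eC_eq ms).1, ← (eC_eq mt).1]) hφ
      (by simpa [Cert.ForcesQ, Forces, (eC_eq ms).1, (eC_eq mt).1] using hF)
      (by simpa [Cert.reactF] using e1) (by simpa [Cert.reactF] using e2)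
    refine key.trans_eq ?_
    simp only [levelJet, Cert.levelJetQ, (eC_eq ms).1, (eC_eq mt).1, (eC_eq ms).2, (eC_eq mt).2]
    ring

/-- The scalar dichotomy from the pointwise certificates. -/
theorem scalar_dichotomy {X : Type*} [TopologicalSpace X] [MeasurableSpace X] [CompactSpace X]
    [BorelSpace X] [PreconnectedSpace X] {S : ScalarGeom X} {G : ℝ → ℝ → ℝ}
    (hP : ∀ κ > 0, Nonempty (Cert.Pointwise G κ (capLevel + 3)))
    (hG : Continuous fun z : ℝ × ℝ => G z.1 z.2)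
    (hG0 : ∀ s t, 0 ≤ s → 0 ≤ t → Cert.qLev s + Cert.qLev t ≤ 2 → 0 ≤ G s t) {c : ℝ}
    (hc : c ≤ 3 / 5)
    (hGz : ∀ s t, 0 ≤ s → 0 ≤ t → Cert.qLev s + Cert.qLev t ≤ 2 → G s t = 0 →
      s ≤ c ∨ t ≤ c ∨ s = t)
    {x y : X → ℝ} (cx : Continuous x) (cy : Continuous y) (hx : ∀ z, 0 ≤ x z) (hy : ∀ z, 0 ≤ y z)
    (hB : Barriers S x y) :
    (∀ z, x z = 0) ∨ (∀ z, y z = 0) ∨ ((∀ z, x z = 1) ∧ ∀ z, y z = 1) :=
  scalar_dichotomy_of_gate (gate_of_cert hG fun κ hκ => (hP κ hκ).map Cert.ofPointwise) hG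
    (fun s t hs ht h => hG0 s t hs ht (mem_of_level hs ht h).2)
    (fun s t hs ht h e => (hGz s t hs ht (mem_of_level hs ht h).2 e).imp (·.trans hc)
      (Or.imp_left (·.trans hc))) cx cy hx hy hB

end

end Vale.Agent.P211.Analytic
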